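import Vale.Agent.P011.D4.H369.Desc
import Vale.Agent.P011.D4.Orbit

/-!
The orbit of `1` under the trialitarian group.
-/

open NumberField

namespace Vale.Agent.P011.D4.H369

open Vale.Agent.P011.MPQ Vale.Agent.P011.D4 Vale.Agent.P011.D4.Oct

variable {k E M : Type} [Field k] [Field E] [Field M] [Algebra k E] [Algebra k M] [Algebra E M]
  [IsScalarTower k E M] {ρ : M ≃ₐ[k] M} {I : Set (M ≃ₐ[k] M)}

theorem orbit_one [NumberField k] (hU : SetU k E M ρ I) {a b c : kˣ} (hdiv : Division a b c)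
    (g : TriU ρ I a b c) : ∃ (a' b' c' : kˣ) (i j l : Oct a b c), Trip a' b' c' i j l ∧
      ∃ x : SL1 (up E a') (up E b'), g.1 1 = Oct.emb (oup M i) (oup M j) (oup M l)
        (shortFun ρ (qEM M ((x : (Qt (up E a') (up E b'))ˣ) : Qt (up E a') (up E b'))) 1 :
          OctL M a' b' c') :=
  Orb.orbit_one_of_desc hU hdiv (fun f hf _ hI => desc hU hdiv f hf hI) g

end Vale.Agent.P011.D4.H369
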