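import Vale.Agent.P011.D4.H369.Alg

/-!
The stabiliser of `1` in the trialitarian group is the automorphism group of the octonion algebra.
-/

namespace Vale.Agent.P011.D4.H369

open Vale.Agent.P011.MPQ Vale.Agent.P011.D4 Vale.Agent.P011.D4.Oct

section mul

variable {k M : Type} [Field k] [Field M] [Algebra k M] {ρ : M ≃ₐ[k] M} {a b c : kˣ}

/-- Octonions over `M` are spanned by octonions over `k`. -/
theorem span_oup : Submodule.span M (Set.range (oup M : Oct a b c → OctL M a b c)) = ⊤ := by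
  rw [eq_top_iff]
  rintro x -
  have h : x = x.fst.re • oup M (⟨⟨1, 0, 0, 0⟩, 0⟩ : Oct a b c) +
      x.fst.imI • oup M (⟨⟨0, 1, 0, 0⟩, 0⟩ : Oct a b c) +
      x.fst.imJ • oup M (⟨⟨0, 0, 1, 0⟩, 0⟩ : Oct a b c) +
      x.fst.imK • oup M (⟨⟨0, 0, 0, 1⟩, 0⟩ : Oct a b c) +
      x.snd.re • oup M (⟨0, ⟨1, 0, 0, 0⟩⟩ : Oct a b c) +
      x.snd.imI • oup M (⟨0, ⟨0, 1, 0, 0⟩⟩ : Oct a b c) +
      x.snd.imJ • oup M (⟨0, ⟨0, 0, 1, 0⟩⟩ : Oct a b c) +
      x.snd.imK • oup M (⟨0, ⟨0, 0, 0, 1⟩⟩ : Oct a b c) := by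
    apply Oct.ext
    · ext <;> simp [oup, qup_re, qup_imI, qup_imJ, qup_imK]
    · ext <;> simp [oup, qup_re, qup_imI, qup_imJ, qup_imK]
  rw [h]
  have hm : ∀ (t : M) (y : Oct a b c), t • oup M y ∈ Submodule.span M
      (Set.range (oup M : Oct a b c → OctL M a b c)) := fun t y =>
    Submodule.smul_mem _ _ (Submodule.subset_span ⟨y, rfl⟩)
  exact add_mem (add_mem (add_mem (add_mem (add_mem (add_mem (add_mem (hm _ _) (hm _ _)) (hm _ _))
    (hm _ _)) (hm _ _)) (hm _ _)) (hm _ _)) (hm _ _)

variable {g : OctL M a b c ≃ₗ[M] OctL M a b c}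
  (hg : ∀ x y, g (tri ρ x y) = tri ρ (g x) (g y)) (h1 : g 1 = 1)

include hg h1

/-- Automorphisms fixing `1` commute with `x ↦ ρ²(x*)`. -/
theorem stab_a (x : OctL M a b c) :
    g (omap ρ (omap ρ (star x))) = omap ρ (omap ρ (star (g x))) := by
  have h := hg 1 x
  simp only [tri, h1, star_one, omap_one, one_mul] at h
  exact h

theorem stab_b (x : OctL M a b c) : g (omap ρ (star x)) = omap ρ (star (g x)) := by
  have h := hg x 1
  simp only [tri, h1, star_one, omap_one, mul_one] at h
  exact h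

variable (r3 : ∀ m, ρ (ρ (ρ m)) = m)

include r3

theorem stab_rho (x : OctL M a b c) : g (omap ρ x) = omap ρ (g x) := by
  have h := stab_a hg h1 (omap ρ (omap ρ (star x)))
  rw [stab_a hg h1 x] at h
  simp only [← omap_star, star_star, omap_three r3] at h
  exact h

theorem stab_star (x : OctL M a b c) : g (star x) = star (g x) := by
  have h := stab_b hg h1 x
  rw [stab_rho hg h1 r3] at h
  have h2 := congrArg (fun z => omap ρ (omap ρ z)) h
  simpa only [omap_three r3] using h2

theorem stab_mul (x y : OctL M a b c) : g (x * y) = g x * g y := by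
  have h := hg (omap ρ (omap ρ (star x))) (omap ρ (star y))
  simp only [tri, omap_star, star_star, omap_three r3] at h
  simp only [stab_rho hg h1 r3, stab_star hg h1 r3, ← omap_star, star_star, omap_three r3] at h
  exact h

end mul

section stab

variable {k E M : Type} [Field k] [Field E] [Field M] [Algebra k E] [Algebra k M] [Algebra E M]
  {ρ : M ≃ₐ[k] M} {I : Set (M ≃ₐ[k] M)} {a b c : kˣ}

theorem stab_desc (hU : SetU k E M ρ I) (g : TriU ρ I a b c) (hg : g.1 1 = 1) (x : Oct a b c) :
    ∃ y : Oct a b c, oup M y = g.1 (oup M x) := by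
  have hm := g.2.1
  apply exists_oup hU
  · rw [← stab_rho hm hg hU.r3, omap_oup]
  · intro ι hι
    have h := g.2.2 ι hι (star (oup M x))
    simp only [invo, star_star, omap_oup] at h
    rw [stab_star hm hg hU.r3, star_star] at h
    exact h.symm

/-- The stabiliser of `1` is the group of automorphisms of the octonion algebra. -/
theorem stab_one (hU : SetU k E M ρ I) {e : AutC a b c →* TriU ρ I a b c} (he : IsExtU ρ I e)
    (g : TriU ρ I a b c) (hg : g.1 1 = 1) : ∃ h : AutC a b c, e h = g := by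
  have hg' : (g⁻¹).1 1 = 1 := by
    apply g.1.injective
    have h1 : ∀ z, g.1 ((g⁻¹).1 z) = z := fun z => by
      change g.1 (g.1⁻¹ z) = z
      rw [← LinearEquiv.mul_apply, mul_inv_cancel]
      rfl
    rw [h1, hg]
  have h1 : ∀ z, g.1 ((g⁻¹).1 z) = z := fun z => by
    change g.1 (g.1⁻¹ z) = z
    rw [← LinearEquiv.mul_apply, mul_inv_cancel]
    rfl
  have h2 : ∀ z, (g⁻¹).1 (g.1 z) = z := fun z => by
    change g.1⁻¹ (g.1 z) = z
    rw [← LinearEquiv.mul_apply, inv_mul_cancel]
    rfl
  choose φ hφ using stab_desc hU g hg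
  choose ψ hψ using stab_desc hU g⁻¹ hg'
  have hinj : Function.Injective (oup M : Oct a b c → OctL M a b c) := oup_injective
  let h : Oct a b c ≃ₗ[k] Oct a b c :=
    { toFun := φ
      invFun := ψ
      left_inv := fun x => by
        apply hinj
        rw [hψ, hφ, h2]
      right_inv := fun x => by
        apply hinj
        rw [hφ, hψ, h1]
      map_add' := fun x y => by
        apply hinj
        rw [hφ, oup_add, oup_add, map_add, hφ, hφ]
      map_smul' := fun t x => by
        apply hinj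
        rw [hφ, oup_smul, map_smul, RingHom.id_apply, oup_smul, hφ] }
  have hmul : ∀ x y, h (x * y) = h x * h y := by
    intro x y
    apply hinj
    change oup M (φ (x * y)) = oup M (φ x * φ y)
    rw [hφ, oup_mul, stab_mul g.2.1 hg hU.r3, oup_mul, hφ, hφ]
  refine ⟨⟨h, hmul⟩, ?_⟩
  apply Subtype.ext
  apply LinearEquiv.toLinearMap_injective
  apply LinearMap.ext_on_range (v := (oup M : Oct a b c → OctL M a b c)) span_oup
  intro x
  change (e ⟨h, hmul⟩).1 (oup M x) = g.1 (oup M x)
  rw [he, ← hφ x]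
  rfl

end stab

end Vale.Agent.P011.D4.H369
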