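import Vale.Agent.P011.D4.Defs4

/-!
Algebra of octonions: trace, bilinear form, alternativity; the action of the Galois group on the
coefficients; extension of scalars.
-/

namespace Vale.Agent.P011.D4.H369

open Vale.Agent.P011.MPQ Vale.Agent.P011.D4 Vale.Agent.P011.D4.Oct

section alg

variable {F : Type} [Field F] {a b c : Fˣ}

/-- The trace of an octonion. -/
def tr (x : Oct a b c) : F := 2 * x.fst.re

theorem star_eq (x : Oct a b c) : star x = tr x • (1 : Oct a b c) - x := by
  ext <;> simp [tr] ; ring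

theorem mul_star (x : Oct a b c) : x * star x = Oct.norm x • (1 : Oct a b c) := by
  ext <;> simp [Oct.norm, nrd] <;> ring

theorem star_mul_self (x : Oct a b c) : star x * x = Oct.norm x • (1 : Oct a b c) := by
  ext <;> simp [Oct.norm, nrd] <;> ring

theorem smul_mul (t : F) (x y : Oct a b c) : (t • x) * y = t • (x * y) := by
  apply Oct.ext
  · simp only [Oct.fst_mul, Oct.fst_smul, Oct.snd_smul, smul_mul_assoc, mul_smul_comm, smul_add,
      smul_comm t]
  · simp only [Oct.snd_mul, Oct.fst_smul, Oct.snd_smul, smul_mul_assoc, mul_smul_comm, smul_add]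

theorem mul_smul' (t : F) (x y : Oct a b c) : x * (t • y) = t • (x * y) := by
  apply Oct.ext
  · simp only [Oct.fst_mul, Oct.fst_smul, Oct.snd_smul, smul_mul_assoc, mul_smul_comm, smul_add,
      QuaternionAlgebra.star_smul, smul_comm t]
  · simp only [Oct.snd_mul, Oct.fst_smul, Oct.snd_smul, smul_mul_assoc, mul_smul_comm, smul_add,
      QuaternionAlgebra.star_smul]

theorem dot_eq (x y : Oct a b c) :
    dot x y = (x.fst.re * y.fst.re - a * (x.fst.imI * y.fst.imI) - b * (x.fst.imJ * y.fst.imJ)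
      + a * b * (x.fst.imK * y.fst.imK)) - c * (x.snd.re * y.snd.re
      - a * (x.snd.imI * y.snd.imI) - b * (x.snd.imJ * y.snd.imJ)
      + a * b * (x.snd.imK * y.snd.imK)) := by
  simp [dot]; ring

theorem dot_comm (x y : Oct a b c) : dot x y = dot y x := by
  rw [dot_eq, dot_eq]; ring

theorem dot_self (x : Oct a b c) : dot x x = Oct.norm x := by
  rw [dot_eq]; simp only [Oct.norm, nrd]; ring

theorem dot_add_left (x y z : Oct a b c) : dot (x + y) z = dot x z + dot y z := by
  simp only [dot_eq, Oct.fst_add, Oct.snd_add, QuaternionAlgebra.re_add,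
    QuaternionAlgebra.imI_add, QuaternionAlgebra.imJ_add, QuaternionAlgebra.imK_add]; ring

theorem dot_smul_left (t : F) (x z : Oct a b c) : dot (t • x) z = t * dot x z := by
  simp only [dot_eq, Oct.fst_smul, Oct.snd_smul, QuaternionAlgebra.re_smul,
    QuaternionAlgebra.imI_smul, QuaternionAlgebra.imJ_smul, QuaternionAlgebra.imK_smul,
    smul_eq_mul]; ring

theorem dot_sub_left (x y z : Oct a b c) : dot (x - y) z = dot x z - dot y z := by
  rw [dot_eq, dot_eq, dot_eq]
  simp only [Oct.fst_sub, Oct.snd_sub, QuaternionAlgebra.re_sub,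
    QuaternionAlgebra.imI_sub, QuaternionAlgebra.imJ_sub, QuaternionAlgebra.imK_sub]; ring

theorem dot_zero_left (z : Oct a b c) : dot 0 z = 0 := by
  rw [dot_eq]; simp

theorem tr_eq_dot (x : Oct a b c) : tr x = 2 * dot x 1 := by
  rw [dot_eq]; simp [tr]

/-- The form as a linear map. -/
def dotL (z : Oct a b c) : Oct a b c →ₗ[F] F where
  toFun x := dot x z
  map_add' x y := dot_add_left x y z
  map_smul' t x := dot_smul_left t x z

theorem mul_star_add (x y : Oct a b c) :
    x * star y + y * star x = (2 * dot x y) • (1 : Oct a b c) := by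
  have h : y * star x = star (x * star y) := by rw [star_mul, star_star]
  rw [h, star_eq (x * star y), add_sub_cancel]
  rfl

theorem mul_self (x : Oct a b c) : x * x = tr x • x - Oct.norm x • (1 : Oct a b c) := by
  have h := mul_star x
  rw [star_eq x, mul_sub, mul_smul', mul_one] at h
  rw [← h]
  abel

end alg

section gal

variable {k M : Type} [Field k] [Field M] [Algebra k M] {a b c : kˣ}

theorem qmap_re (σ : M ≃ₐ[k] M) (x : Qt (up M a) (up M b)) : (qmap σ x).re = σ x.re := rfl
theorem qmap_imI (σ : M ≃ₐ[k] M) (x : Qt (up M a) (up M b)) : (qmap σ x).imI = σ x.imI := rfl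
theorem qmap_imJ (σ : M ≃ₐ[k] M) (x : Qt (up M a) (up M b)) : (qmap σ x).imJ = σ x.imJ := rfl
theorem qmap_imK (σ : M ≃ₐ[k] M) (x : Qt (up M a) (up M b)) : (qmap σ x).imK = σ x.imK := rfl

theorem qmap_add (σ : M ≃ₐ[k] M) (x y : Qt (up M a) (up M b)) :
    qmap σ (x + y) = qmap σ x + qmap σ y := by
  ext <;> simp [qmap_re, qmap_imI, qmap_imJ, qmap_imK]

theorem qmap_mul (σ : M ≃ₐ[k] M) (x y : Qt (up M a) (up M b)) :
    qmap σ (x * y) = qmap σ x * qmap σ y := by
  ext <;> simp [qmap_re, qmap_imI, qmap_imJ, qmap_imK, up]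

theorem qmap_star (σ : M ≃ₐ[k] M) (x : Qt (up M a) (up M b)) :
    qmap σ (star x) = star (qmap σ x) := by
  ext <;> simp [qmap_re, qmap_imI, qmap_imJ, qmap_imK]

theorem qmap_smul (σ : M ≃ₐ[k] M) (t : M) (x : Qt (up M a) (up M b)) :
    qmap σ (t • x) = σ t • qmap σ x := by
  ext <;> simp [qmap_re, qmap_imI, qmap_imJ, qmap_imK]

theorem qmap_neg (σ : M ≃ₐ[k] M) (x : Qt (up M a) (up M b)) : qmap σ (-x) = -qmap σ x := by
  ext <;> simp [qmap_re, qmap_imI, qmap_imJ, qmap_imK]

theorem qmap_one (σ : M ≃ₐ[k] M) : qmap σ (1 : Qt (up M a) (up M b)) = 1 := by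
  ext <;> simp [qmap_re, qmap_imI, qmap_imJ, qmap_imK]

theorem qmap_zero (σ : M ≃ₐ[k] M) : qmap σ (0 : Qt (up M a) (up M b)) = 0 := by
  ext <;> simp [qmap_re, qmap_imI, qmap_imJ, qmap_imK]

theorem omap_add (σ : M ≃ₐ[k] M) (x y : OctL M a b c) :
    omap σ (x + y) = omap σ x + omap σ y := by
  apply Oct.ext
  · exact qmap_add σ _ _
  · exact qmap_add σ _ _

theorem omap_smul (σ : M ≃ₐ[k] M) (t : M) (x : OctL M a b c) :
    omap σ (t • x) = σ t • omap σ x := by
  apply Oct.ext
  · exact qmap_smul σ _ _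
  · exact qmap_smul σ _ _

theorem omap_mul (σ : M ≃ₐ[k] M) (x y : OctL M a b c) :
    omap σ (x * y) = omap σ x * omap σ y := by
  apply Oct.ext
  · change qmap σ (x.fst * y.fst + ((up M c : Mˣ) : M) • (star y.snd * x.snd)) =
      qmap σ x.fst * qmap σ y.fst + ((up M c : Mˣ) : M) • (star (qmap σ y.snd) * qmap σ x.snd)
    rw [qmap_add, qmap_mul, qmap_smul, qmap_mul, qmap_star]
    congr 2
    simp [up]
  · change qmap σ (y.snd * x.fst + x.snd * star y.fst) =
      qmap σ y.snd * qmap σ x.fst + qmap σ x.snd * star (qmap σ y.fst)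
    rw [qmap_add, qmap_mul, qmap_mul, qmap_star]

theorem omap_star (σ : M ≃ₐ[k] M) (x : OctL M a b c) : omap σ (star x) = star (omap σ x) := by
  apply Oct.ext
  · exact qmap_star σ _
  · exact qmap_neg σ _

theorem omap_one (σ : M ≃ₐ[k] M) : omap σ (1 : OctL M a b c) = 1 := by
  apply Oct.ext
  · exact qmap_one σ
  · exact qmap_zero σ

theorem omap_zero (σ : M ≃ₐ[k] M) : omap σ (0 : OctL M a b c) = 0 := by
  apply Oct.ext
  · exact qmap_zero σ
  · exact qmap_zero σ

theorem omap_comp (σ τ : M ≃ₐ[k] M) (x : OctL M a b c) : omap (σ * τ) x = omap σ (omap τ x) := rfl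

theorem omap_id (x : OctL M a b c) : omap (1 : M ≃ₐ[k] M) x = x := rfl

/-- `omap` as an additive map. -/
def omapA (σ : M ≃ₐ[k] M) : OctL M a b c →+ OctL M a b c where
  toFun := omap σ
  map_zero' := omap_zero σ
  map_add' := omap_add σ

theorem omap_three {ρ : M ≃ₐ[k] M} (r3 : ∀ m, ρ (ρ (ρ m)) = m) (x : OctL M a b c) :
    omap ρ (omap ρ (omap ρ x)) = x := by
  apply Oct.ext <;> (ext <;> exact r3 _)

theorem omap_two {ι : M ≃ₐ[k] M} (r2 : ∀ m, ι (ι m) = m) (x : OctL M a b c) :
    omap ι (omap ι x) = x := by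
  apply Oct.ext <;> (ext <;> exact r2 _)

theorem omap_iri {ρ ι : M ≃ₐ[k] M} (h : ∀ m, ι (ρ (ι m)) = ρ (ρ m)) (x : OctL M a b c) :
    omap ι (omap ρ (omap ι x)) = omap ρ (omap ρ x) := by
  apply Oct.ext <;> (ext <;> exact h _)

end gal

section up

variable {k M : Type} [Field k] [Field M] [Algebra k M] {a b c : kˣ}

theorem qup_re (x : Qt a b) : (qup M x).re = algebraMap k M x.re := rfl
theorem qup_imI (x : Qt a b) : (qup M x).imI = algebraMap k M x.imI := rfl
theorem qup_imJ (x : Qt a b) : (qup M x).imJ = algebraMap k M x.imJ := rfl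
theorem qup_imK (x : Qt a b) : (qup M x).imK = algebraMap k M x.imK := rfl

theorem qup_add (x y : Qt a b) : qup M (x + y) = qup M x + qup M y := by
  ext <;> simp [qup_re, qup_imI, qup_imJ, qup_imK]

theorem qup_mul (x y : Qt a b) : qup M (x * y) = qup M x * qup M y := by
  ext <;> simp [qup_re, qup_imI, qup_imJ, qup_imK, up]

theorem qup_star (x : Qt a b) : qup M (star x) = star (qup M x) := by
  ext <;> simp [qup_re, qup_imI, qup_imJ, qup_imK]

theorem qup_smul (t : k) (x : Qt a b) : qup M (t • x) = algebraMap k M t • qup M x := by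
  ext <;> simp [qup_re, qup_imI, qup_imJ, qup_imK, -algebraMap_smul]

theorem qup_neg (x : Qt a b) : qup M (-x) = -qup M x := by
  ext <;> simp [qup_re, qup_imI, qup_imJ, qup_imK]

theorem qup_one : qup M (1 : Qt a b) = 1 := by
  ext <;> simp [qup_re, qup_imI, qup_imJ, qup_imK]

theorem qup_zero : qup M (0 : Qt a b) = 0 := by
  ext <;> simp [qup_re, qup_imI, qup_imJ, qup_imK]

theorem oup_add (x y : Oct a b c) : oup M (x + y) = oup M x + oup M y := by
  apply Oct.ext
  · exact qup_add _ _
  · exact qup_add _ _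

theorem oup_smul (t : k) (x : Oct a b c) : oup M (t • x) = algebraMap k M t • oup M x := by
  apply Oct.ext
  · exact qup_smul _ _
  · exact qup_smul _ _

theorem oup_mul (x y : Oct a b c) : oup M (x * y) = oup M x * oup M y := by
  apply Oct.ext
  · change qup M (x.fst * y.fst + (c : k) • (star y.snd * x.snd)) =
      qup M x.fst * qup M y.fst + ((up M c : Mˣ) : M) • (star (qup M y.snd) * qup M x.snd)
    rw [qup_add, qup_mul, qup_smul, qup_mul, qup_star]
    rfl
  · change qup M (y.snd * x.fst + x.snd * star y.fst) =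
      qup M y.snd * qup M x.fst + qup M x.snd * star (qup M y.fst)
    rw [qup_add, qup_mul, qup_mul, qup_star]

theorem oup_star (x : Oct a b c) : oup M (star x) = star (oup M x) := by
  apply Oct.ext
  · exact qup_star _
  · exact qup_neg _

theorem oup_one : oup M (1 : Oct a b c) = 1 := by
  apply Oct.ext
  · exact qup_one
  · exact qup_zero

theorem oup_zero : oup M (0 : Oct a b c) = 0 := by
  apply Oct.ext
  · exact qup_zero
  · exact qup_zero

theorem oup_injective : Function.Injective (oup M : Oct a b c → OctL M a b c) := by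
  intro x y h
  have hinj := FaithfulSMul.algebraMap_injective k M
  apply Oct.ext
  · ext
    · exact hinj (congrArg (fun o : OctL M a b c => o.fst.re) h)
    · exact hinj (congrArg (fun o : OctL M a b c => o.fst.imI) h)
    · exact hinj (congrArg (fun o : OctL M a b c => o.fst.imJ) h)
    · exact hinj (congrArg (fun o : OctL M a b c => o.fst.imK) h)
  · ext
    · exact hinj (congrArg (fun o : OctL M a b c => o.snd.re) h)
    · exact hinj (congrArg (fun o : OctL M a b c => o.snd.imI) h)
    · exact hinj (congrArg (fun o : OctL M a b c => o.snd.imJ) h)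
    · exact hinj (congrArg (fun o : OctL M a b c => o.snd.imK) h)

theorem dot_oup (x y : Oct a b c) : dot (oup M x) (oup M y) = algebraMap k M (dot x y) := by
  rw [dot_eq, dot_eq]
  simp [oup, qup_re, qup_imI, qup_imJ, qup_imK, up]

theorem omap_oup (σ : M ≃ₐ[k] M) (x : Oct a b c) : omap σ (oup M x) = oup M x := by
  apply Oct.ext
  · ext <;> simp [omap, oup, qmap_re, qmap_imI, qmap_imJ, qmap_imK, qup_re, qup_imI, qup_imJ, qup_imK]
  · ext <;> simp [omap, oup, qmap_re, qmap_imI, qmap_imJ, qmap_imK, qup_re, qup_imI, qup_imJ, qup_imK]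

end up

section fix

variable {k E M : Type} [Field k] [Field E] [Field M] [Algebra k E] [Algebra k M] [Algebra E M]
  {ρ : M ≃ₐ[k] M} {I : Set (M ≃ₐ[k] M)} {a b c : kˣ}

/-- Octonions fixed by the Galois group come from the ground field. -/
theorem exists_oup (hU : SetU k E M ρ I) (x : OctL M a b c) (hx : omap ρ x = x)
    (hI : ∀ ι ∈ I, omap ι x = x) : ∃ w : Oct a b c, oup M w = x := by
  have h : ∀ π : OctL M a b c → M, (∀ σ : M ≃ₐ[k] M, ∀ y, π (omap σ y) = σ (π y)) →
      ∃ t : k, algebraMap k M t = π x := by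
    intro π hπ
    apply hU.fixk
    · rw [← hπ, hx]
    · intro ι hι
      rw [← hπ, hI ι hι]
  obtain ⟨x0, h0⟩ := h (fun y => y.fst.re) (fun _ _ => rfl)
  obtain ⟨x1, h1⟩ := h (fun y => y.fst.imI) (fun _ _ => rfl)
  obtain ⟨x2, h2⟩ := h (fun y => y.fst.imJ) (fun _ _ => rfl)
  obtain ⟨x3, h3⟩ := h (fun y => y.fst.imK) (fun _ _ => rfl)
  obtain ⟨x4, h4⟩ := h (fun y => y.snd.re) (fun _ _ => rfl)
  obtain ⟨x5, h5⟩ := h (fun y => y.snd.imI) (fun _ _ => rfl)
  obtain ⟨x6, h6⟩ := h (fun y => y.snd.imJ) (fun _ _ => rfl)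
  obtain ⟨x7, h7⟩ := h (fun y => y.snd.imK) (fun _ _ => rfl)
  refine ⟨⟨⟨x0, x1, x2, x3⟩, ⟨x4, x5, x6, x7⟩⟩, ?_⟩
  apply Oct.ext
  · ext
    · exact h0
    · exact h1
    · exact h2
    · exact h3
  · ext
    · exact h4
    · exact h5
    · exact h6
    · exact h7

end fix

end Vale.Agent.P011.D4.H369
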