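import Vale.Agent.P011.D4.Homs
import Vale.Agent.P011.D4.Asm2
import Vale.Agent.P011.D4.H369.OrbitOne

/-!
The centraliser of the long subgroup in the trialitarian group.
-/

namespace Vale.Agent.P011.D4.H369

open Vale.Agent.P011.MPQ Vale.Agent.P011.D4 Vale.Agent.P011.D4.Oct

section quat

variable {F : Type} [Field F] {a b : Fˣ}

theorem qt_star_mul (x : Qt a b) : star x * x = nrd x • (1 : Qt a b) := by
  apply QuaternionAlgebra.ext <;> simp [nrd] <;> ring

theorem qt_mul_star (x : Qt a b) : x * star x = nrd x • (1 : Qt a b) := by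
  apply QuaternionAlgebra.ext <;> simp [nrd] <;> ring

end quat

section formulas

variable {k M : Type} [Field k] [Field M] [Algebra k M] {ρ : M ≃ₐ[k] M} {I : Set (M ≃ₐ[k] M)}
  {a b c : kˣ}

/-- The long elements over the extension. -/
def longM (t : Qt (up M a) (up M b)) : OctL M a b c →ₗ[M] OctL M a b c where
  toFun y := ⟨y.fst, t * y.snd⟩
  map_add' x y := by
    apply Oct.ext
    · rfl
    · exact mul_add _ _ _
  map_smul' s x := by
    apply Oct.ext
    · rfl
    · exact mul_smul_comm _ _ _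

theorem e_long {e : AutC a b c →* TriU ρ I a b c} (he : IsExtU ρ I e) (t : SL1 a b)
    (y : OctL M a b c) :
    (e (long a b c t)).1 y = ⟨y.fst, qup M ((t : (Qt a b)ˣ) : Qt a b) * y.snd⟩ := by
  have h : ((e (long a b c t)).1 : OctL M a b c →ₗ[M] OctL M a b c) =
      longM (qup M ((t : (Qt a b)ˣ) : Qt a b)) := by
    apply H24.extL_unique
    intro x
    change (e (long a b c t)).1 (oup M x) = _
    rw [he]
    apply Oct.ext
    · rfl
    · exact qup_mul _ _
  exact LinearMap.congr_fun h y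

/-- A linear map that commutes with the left multiplications by the elements of norm one is a
right multiplication. -/
theorem lin_of_comm [CharZero k] (hab : Aniso a b)
    (B : Qt (up M a) (up M b) →ₗ[M] Qt (up M a) (up M b))
    (hB : ∀ t : Qt a b, nrd t = 1 → ∀ q, B (qup M t * q) = qup M t * B q)
    (q : Qt (up M a) (up M b)) : B q = q * B 1 := by
  have hB' : ∀ (n : Qt a b) (α β : k), (∃ t : Qt a b, nrd t = 1 ∧ n = α • t + β • 1) →
      ∀ q, B (qup M n * q) = qup M n * B q := by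
    rintro n α β ⟨t, ht, rfl⟩ q
    have e : ∀ z : Qt (up M a) (up M b), qup M (α • t + β • 1) * z =
        algebraMap k M α • (qup M t * z) + algebraMap k M β • z := by
      intro z
      rw [D4.qup_add, D4.qup_smul, D4.qup_smul, D4.qup_one, _root_.add_mul, smul_mul_assoc,
        smul_mul_assoc, _root_.one_mul]
    rw [e, e, map_add, map_smul, map_smul, hB t ht]
  have ha : (1 : k) - a ≠ 0 := by
    intro h0
    have h1 := hab ⟨1, 1, 0, 0⟩ (by simp only [nrd]; linear_combination h0)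
    have h2 := congrArg QuaternionAlgebra.re h1
    simp at h2
  have hb : (1 : k) - b ≠ 0 := by
    intro h0
    have h1 := hab ⟨1, 0, 1, 0⟩ (by simp only [nrd]; linear_combination h0)
    have h2 := congrArg QuaternionAlgebra.re h1
    simp at h2
  have hi := hB' ⟨0, 1, 0, 0⟩ ((1 - a) / 2) (-(1 + a) / 2)
    ⟨⟨(1 + a) / (1 - a), 2 / (1 - a), 0, 0⟩, by
      simp only [nrd]
      field_simp
      ring, by
      apply QuaternionAlgebra.ext
      · simp
        field_simp
        ring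
      · simp
        field_simp
      · simp
      · simp⟩
  have hj := hB' ⟨0, 0, 1, 0⟩ ((1 - b) / 2) (-(1 + b) / 2)
    ⟨⟨(1 + b) / (1 - b), 0, 2 / (1 - b), 0⟩, by
      simp only [nrd]
      field_simp
      ring, by
      apply QuaternionAlgebra.ext
      · simp
        field_simp
        ring
      · simp
      · simp
        field_simp
      · simp⟩
  set i : Qt (up M a) (up M b) := qup M ⟨0, 1, 0, 0⟩ with hi0
  set j : Qt (up M a) (up M b) := qup M ⟨0, 0, 1, 0⟩ with hj0
  have e : ∀ z : Qt (up M a) (up M b), q * z = q.re • z + q.imI • (i * z) + q.imJ • (j * z) +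
      q.imK • (i * (j * z)) := by
    intro z
    apply QuaternionAlgebra.ext
    · simp [hi0, hj0]
      ring
    · simp [hi0, hj0]
      ring
    · simp [hi0, hj0]
      ring
    · simp [hi0, hj0]
      ring
  have e1 := e 1
  rw [_root_.mul_one] at e1
  conv_lhs => rw [e1]
  rw [map_add, map_add, map_add, map_smul, map_smul, map_smul, map_smul, hi, hj, hi, hj, e]

end formulas

section cen

variable {k E M : Type} [Field k] [Field E] [Field M] [Algebra k E] [Algebra k M] [Algebra E M]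
  [IsScalarTower k E M] {ρ : M ≃ₐ[k] M} {I : Set (M ≃ₐ[k] M)} {a b c : kˣ}

omit [IsScalarTower k E M] in
theorem exists_qEM (hU : SetU k E M ρ I) {x : Qt (up M a) (up M b)}
    (hx : ∀ ι ∈ I, qmap ρ (qmap ι x) = x) : ∃ y : Qt (up E a) (up E b), qEM M y = x := by
  obtain ⟨e1, h1⟩ := hU.fixE x.re fun ι hι => congrArg QuaternionAlgebra.re (hx ι hι)
  obtain ⟨e2, h2⟩ := hU.fixE x.imI fun ι hι => congrArg QuaternionAlgebra.imI (hx ι hι)
  obtain ⟨e3, h3⟩ := hU.fixE x.imJ fun ι hι => congrArg QuaternionAlgebra.imJ (hx ι hι)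
  obtain ⟨e4, h4⟩ := hU.fixE x.imK fun ι hι => congrArg QuaternionAlgebra.imK (hx ι hι)
  exact ⟨⟨e1, e2, e3, e4⟩, QuaternionAlgebra.ext h1 h2 h3 h4⟩

theorem nrd_qEM (x : Qt (up E a) (up E b)) :
    nrd (qEM M x : Qt (up M a) (up M b)) = algebraMap E M (nrd x) := by
  have ha : ((up M a : Mˣ) : M) = algebraMap E M ((up E a : Eˣ) : E) :=
    IsScalarTower.algebraMap_apply k E M _
  have hb : ((up M b : Mˣ) : M) = algebraMap E M ((up E b : Eˣ) : E) :=
    IsScalarTower.algebraMap_apply k E M _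
  simp only [nrd, qEM, ha, hb, map_add, map_sub, map_mul, map_pow]

/-- **The centraliser of the long subgroup is the short subgroup.** -/
theorem cen [CharZero k] (hU : SetU k E M ρ I) (hab : Aniso a b)
    {e : AutC a b c →* TriU ρ I a b c} (he : IsExtU ρ I e) (g : TriU ρ I a b c)
    (hg : ∀ t : SL1 a b, g * e (long a b c t) = e (long a b c t) * g) :
    ∃ x : SL1 (up E a) (up E b), ∀ y : OctL M a b c,
      g.1 y = shortFun ρ (qEM M ((x : (Qt (up E a) (up E b))ˣ) : Qt (up E a) (up E b))) y := by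
  have h2 : (2 : M) ≠ 0 := by
    have : CharZero M := charZero_of_injective_algebraMap (algebraMap k M).injective
    exact two_ne_zero
  have key : ∀ t : Qt a b, nrd t = 1 → ∀ y : OctL M a b c,
      g.1 ⟨y.fst, qup M t * y.snd⟩ = ⟨(g.1 y).fst, qup M t * (g.1 y).snd⟩ := by
    intro t ht y
    obtain ⟨t', rfl⟩ := exists_SL1 ht
    have h := congrArg (fun z : TriU ρ I a b c => z.1 y) (hg t')
    change g.1 ((e (long a b c t')).1 y) = (e (long a b c t')).1 (g.1 y) at h
    rwa [e_long he, e_long he] at h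
  have hm1 : nrd (-1 : Qt a b) = 1 := by
    simp [nrd]
  have hq1 : qup M (-1 : Qt a b) = -1 := by
    rw [D4.qup_neg, D4.qup_one]
  have h0q : ∀ q : Qt (up M a) (up M b), (g.1 ⟨0, q⟩).fst = 0 := by
    intro q
    have h := key (-1) hm1 ⟨0, q⟩
    have h1 : (⟨0, qup M (-1 : Qt a b) * q⟩ : OctL M a b c) = -⟨0, q⟩ := by
      rw [hq1]
      apply Oct.ext
      · exact neg_zero.symm
      · exact neg_one_mul q
    change g.1 ⟨0, qup M (-1 : Qt a b) * q⟩ = _ at h
    rw [h1, map_neg] at h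
    have h3 := congrArg Oct.fst h
    change -(g.1 ⟨0, q⟩).fst = (g.1 ⟨0, q⟩).fst at h3
    have h4 : (2 : M) • (g.1 ⟨0, q⟩).fst = 0 := by
      rw [two_smul]
      nth_rewrite 1 [← h3]
      exact neg_add_cancel _
    exact (smul_eq_zero.1 h4).resolve_left h2
  have hp0 : ∀ p : Qt (up M a) (up M b), (g.1 ⟨p, 0⟩).snd = 0 := by
    intro p
    have h := key (-1) hm1 ⟨p, 0⟩
    change g.1 ⟨p, qup M (-1 : Qt a b) * 0⟩ = _ at h
    rw [MulZeroClass.mul_zero, hq1] at h
    have h3 := congrArg Oct.snd h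
    change (g.1 ⟨p, 0⟩).snd = -1 * (g.1 ⟨p, 0⟩).snd at h3
    rw [neg_one_mul] at h3
    have h4 : (2 : M) • (g.1 ⟨p, 0⟩).snd = 0 := by
      rw [two_smul]
      nth_rewrite 1 [h3]
      exact neg_add_cancel _
    exact (smul_eq_zero.1 h4).resolve_left h2
  let B : Qt (up M a) (up M b) →ₗ[M] Qt (up M a) (up M b) :=
    { toFun := fun q => (g.1 ⟨0, q⟩).snd
      map_add' := fun q q' => by
        have h : (⟨0, q + q'⟩ : OctL M a b c) = ⟨0, q⟩ + ⟨0, q'⟩ := by
          apply Oct.ext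
          · exact (_root_.add_zero _).symm
          · rfl
        rw [h, map_add]
        rfl
      map_smul' := fun s q => by
        have h : (⟨0, s • q⟩ : OctL M a b c) = s • ⟨0, q⟩ := by
          apply Oct.ext
          · exact (smul_zero _).symm
          · rfl
        rw [h, map_smul]
        rfl }
  have hBd : ∀ q, g.1 ⟨0, q⟩ = ⟨0, B q⟩ := fun q => Oct.ext (h0q q) rfl
  have hBl := lin_of_comm hab B (fun t ht q => congrArg Oct.snd (key t ht ⟨0, q⟩))
  set y := B 1 with hy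
  have hgq : ∀ q, g.1 ⟨0, q⟩ = ⟨0, q * y⟩ := fun q => by rw [hBd, hBl]
  have h3 : ∀ z : Qt (up M a) (up M b), qmap ρ (qmap ρ (qmap ρ z)) = z := H24.qmap_cube ρ hU.r3
  have hc : ((up M c : Mˣ) : M) ≠ 0 := (up M c).ne_zero
  have hρc : ρ ((up M c : Mˣ) : M) = ((up M c : Mˣ) : M) := ρ.commutes _
  -- the first component
  have hgp : ∀ p, g.1 ⟨p, 0⟩ = ⟨star (qmap ρ (qmap ρ y)) * p * qmap ρ y, 0⟩ := by
    intro p
    have ht := g.2.1 ⟨0, qmap ρ (qmap ρ p)⟩ ⟨0, 1⟩
    rw [hgq, hgq] at ht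
    have e1 : tri ρ (⟨0, qmap ρ (qmap ρ p)⟩ : OctL M a b c) ⟨0, 1⟩ =
        ((up M c : Mˣ) : M) • ⟨p, 0⟩ := by
      apply Oct.ext
      · rw [H24.fst_tri]
        simp [h3]
      · rw [H24.snd_tri]
        simp
    have e2 : tri ρ (⟨0, qmap ρ (qmap ρ p) * y⟩ : OctL M a b c) ⟨0, 1 * y⟩ =
        ((up M c : Mˣ) : M) • ⟨star (qmap ρ (qmap ρ y)) * p * qmap ρ y, 0⟩ := by
      apply Oct.ext
      · rw [H24.fst_tri]
        simp [h3, D4.qmap_mul, _root_.mul_assoc]
      · rw [H24.snd_tri]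
        simp
    rw [e1, e2, map_smul] at ht
    exact (smul_right_injective _ hc) ht
  -- the norm
  have hy0 : y ≠ 0 := by
    intro h0
    have h := hgq 1
    rw [h0, MulZeroClass.mul_zero] at h
    have h1 : (⟨0, 1⟩ : OctL M a b c) = 0 := g.1.injective (by
      rw [h, map_zero]
      rfl)
    have h4 := congrArg (fun z : OctL M a b c => z.snd.re) h1
    simp at h4
  have hn : nrd y = 1 := by
    have ht := g.2.1 ⟨1, 0⟩ ⟨0, 1⟩
    rw [hgq, hgp] at ht
    have e1 : tri ρ (⟨1, 0⟩ : OctL M a b c) ⟨0, 1⟩ = ⟨0, -1⟩ := by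
      apply Oct.ext
      · rw [H24.fst_tri]
        simp
      · rw [H24.snd_tri]
        simp
    rw [e1, hgq] at ht
    have ht' := congrArg Oct.snd ht
    rw [H24.snd_tri] at ht'
    have e4 : qmap ρ (qmap ρ (1 * y)) * qmap ρ (star (star (qmap ρ (qmap ρ y)) * 1 * qmap ρ y)) =
        nrd (qmap ρ (qmap ρ y)) • y := by
      rw [_root_.one_mul, _root_.mul_one, star_mul, star_star, D4.qmap_mul, D4.qmap_star, h3,
        ← _root_.mul_assoc, qt_mul_star, smul_mul_assoc, _root_.one_mul]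
    change -1 * y = -(qmap ρ (qmap ρ (1 * y)) * qmap ρ (star (star (qmap ρ (qmap ρ y)) * 1 *
      qmap ρ y)) + qmap ρ 0 * qmap ρ (qmap ρ 0)) at ht'
    rw [e4, D4.qmap_zero, MulZeroClass.zero_mul, _root_.add_zero, neg_one_mul, neg_inj] at ht'
    have h5 : (nrd (qmap ρ (qmap ρ y)) - 1) • y = 0 := by
      rw [sub_smul, one_smul, ← ht', sub_self]
    have h6 := sub_eq_zero.1 ((smul_eq_zero.1 h5).resolve_right hy0)
    rw [D4.nrd_qmap, D4.nrd_qmap] at h6
    apply ρ.injective
    apply ρ.injective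
    rw [h6, map_one, map_one]
  -- the field of definition
  have hι : ∀ ι ∈ I, qmap ι y = y := by
    intro ι hι
    have h := g.2.2 ι hι ⟨0, 1⟩
    rw [hgq] at h
    have e1 : invo ι (⟨0, 1⟩ : OctL M a b c) = ⟨0, -1⟩ := by
      apply Oct.ext
      · change qmap ι (star 0) = 0
        rw [star_zero, D4.qmap_zero]
      · change qmap ι (-1) = -1
        rw [D4.qmap_neg, D4.qmap_one]
    rw [e1, hgq] at h
    have h1 := congrArg Oct.snd h
    change -1 * y = qmap ι (-(1 * y)) at h1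
    rw [D4.qmap_neg, neg_one_mul, _root_.one_mul, neg_inj] at h1
    exact h1.symm
  have hιρ : ∀ ι ∈ I, ∀ z : Qt (up M a) (up M b),
      qmap ι (qmap ρ (qmap ι z)) = qmap ρ (qmap ρ z) := fun ι hι z =>
    QuaternionAlgebra.ext (hU.iri ι hι _) (hU.iri ι hι _) (hU.iri ι hι _) (hU.iri ι hι _)
  have hιι : ∀ ι ∈ I, ∀ z : Qt (up M a) (up M b), qmap ι (qmap ι z) = z := fun ι hι z =>
    QuaternionAlgebra.ext (hU.ii ι hι _) (hU.ii ι hι _) (hU.ii ι hι _) (hU.ii ι hι _)
  have hE : ∀ ι ∈ I, qmap ρ (qmap ι (qmap ρ (qmap ρ (star y)))) = qmap ρ (qmap ρ (star y)) := by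
    intro ι hi
    have h5 := hιρ ι hi (star y)
    rw [D4.qmap_star ι y, hι ι hi] at h5
    -- `ι ρ (star y) = ρ² (star y)`
    have h6 : qmap ι (qmap ρ (qmap ρ (star y))) = qmap ρ (star y) := by
      rw [← h5, hιι ι hi]
    rw [h6]
  obtain ⟨x, hx⟩ := exists_qEM hU hE
  have hnx : nrd x = 1 := by
    apply (algebraMap E M).injective
    rw [← nrd_qEM (k := k) (M := M), hx, D4.nrd_qmap, D4.nrd_qmap, map_one]
    have h7 : nrd (star y) = 1 := by
      rw [← hn]
      simp [nrd]
    rw [h7, map_one, map_one]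
  obtain ⟨x', rfl⟩ := exists_SL1 hnx
  refine ⟨x', fun w => ?_⟩
  rw [hx]
  have hw : w = ⟨w.fst, 0⟩ + ⟨0, w.snd⟩ := by
    apply Oct.ext
    · exact (_root_.add_zero _).symm
    · exact (_root_.zero_add _).symm
  conv_lhs => rw [hw]
  rw [map_add, hgp, hgq]
  apply Oct.ext
  · simp only [shortFun, Oct.fst_add, D4.qmap_star, h3, star_star, _root_.add_zero]
  · simp only [shortFun, Oct.snd_add, D4.qmap_star, h3, star_star, _root_.zero_add]

end cen

end Vale.Agent.P011.D4.H369
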