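import Vale.Agent.P011.D4.R1

/-!
A small subalgebra of an octonion division algebra is contained in a quaternion subalgebra.
-/

namespace Vale.Agent.P011.D4.H369

open Vale.Agent.P011.MPQ Vale.Agent.P011.D4 Vale.Agent.P011.D4.Oct

variable {F : Type} [Field F] {a b c : Fˣ}

theorem pure_of_dot {x : Oct a b c} (h : dot x 1 = 0) : star x = -x := by
  apply star_eq_neg_iff.2
  rw [bil_eq_dot, h, mul_zero]

theorem dot_one_one : dot (1 : Oct a b c) 1 = 1 := by
  simp [dot]

theorem dot_zero_left (x : Oct a b c) : dot 0 x = 0 := by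
  simp [dot]

theorem dot_mul_i {i j : Oct a b c} (hj : dot j 1 = 0) : dot (i * j) i = 0 := by
  rw [dot_mul_left, star_mul_self, dot_smul_right, hj, mul_zero]

theorem dot_mul_j {i j : Oct a b c} (hi : dot i 1 = 0) : dot (i * j) j = 0 := by
  rw [dot_mul_left', mul_star_self, dot_smul_right, hi, mul_zero]

theorem dot_mul_one {i j : Oct a b c} (hi : dot i 1 = 0) (hji : dot j i = 0) :
    dot (i * j) 1 = 0 := by
  rw [dot_mul_left, mul_one, pure_of_dot hi, dot_neg_right, hji, neg_zero]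

theorem trip_of_ij (hdiv : Division a b c) {i j : Oct a b c} (hi1 : dot i 1 = 0) (hi0 : i ≠ 0)
    (hj1 : dot j 1 = 0) (hj0 : j ≠ 0) (hji : dot j i = 0) :
    ∃ (a' b' c' : Fˣ) (l : Oct a b c), Trip a' b' c' i j l := by
  obtain ⟨l, hl0, hl⟩ := exists_perp ![1, i, j, i * j, 0, 0, 0]
  have h0 : dot l 1 = 0 := hl 0
  have h1 : dot l i = 0 := hl 1
  have h2 : dot l j = 0 := hl 2
  have h3 : dot l (i * j) = 0 := hl 3
  obtain ⟨a', b', c', h⟩ := exists_trip hdiv (pure_of_dot hi1) hi0 (pure_of_dot hj1) hj0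
    (pure_of_dot h0) hl0 (by rw [dot_comm, hji]) (by rw [dot_comm, h1]) (by rw [dot_comm, h2])
    (by rw [dot_comm, h3])
  exact ⟨a', b', c', l, h⟩

/-- A subalgebra of dimension at most four is contained in a quaternion subalgebra. -/
theorem exists_pair_of_sub (hdiv : Division a b c) (W : Submodule F (Oct a b c)) (h1 : 1 ∈ W)
    (hmul : ∀ x ∈ W, ∀ y ∈ W, x * y ∈ W)
    (hdim : ∀ u : Fin 5 → Oct a b c, (∀ m, u m ∈ W) → (∀ m, norm (u m) ≠ 0) →
      ¬ (∀ m n, m ≠ n → dot (u m) (u n) = 0)) :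
    ∃ (a' b' c' : Fˣ) (i j l : Oct a b c), Trip a' b' c' i j l ∧
      ∀ w ∈ W, ∃ x : Qt a' b', w = qemb i j x := by
  by_cases hA : ∀ w ∈ W, ∃ t : F, w = t • (1 : Oct a b c)
  · refine ⟨a, b, c, gi, gj, gl, trip_std, fun w hw => ?_⟩
    obtain ⟨t, rfl⟩ := hA w hw
    exact ⟨⟨t, 0, 0, 0⟩, by simp [qemb]⟩
  push Not at hA
  obtain ⟨w0, hw0, hw0'⟩ := hA
  obtain ⟨i, hi⟩ : ∃ i, i = w0 - dot w0 1 • (1 : Oct a b c) := ⟨_, rfl⟩
  have hi0 : i ≠ 0 := by
    intro h
    rw [h] at hi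
    exact hw0' _ (sub_eq_zero.1 hi.symm)
  have hi1 : dot i 1 = 0 := by
    rw [hi, dot_sub_left, dot_smul_left, dot_one_one]
    ring
  have hiW : i ∈ W := by
    rw [hi]
    exact W.sub_mem hw0 (W.smul_mem _ h1)
  have hni : norm i ≠ 0 := fun h => hi0 (hdiv i h)
  by_cases hB : ∀ w ∈ W, ∃ s t : F, w = s • (1 : Oct a b c) + t • i
  · obtain ⟨j, hj0, hj⟩ := exists_perp ![1, i, 0, 0, 0, 0, 0]
    have hj1 : dot j 1 = 0 := hj 0
    have hji : dot j i = 0 := hj 1
    obtain ⟨a', b', c', l, hT⟩ := trip_of_ij hdiv hi1 hi0 hj1 hj0 hji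
    refine ⟨a', b', c', i, j, l, hT, fun w hw => ?_⟩
    obtain ⟨s, t, rfl⟩ := hB w hw
    exact ⟨⟨s, t, 0, 0⟩, by simp [qemb]⟩
  push Not at hB
  obtain ⟨w1, hw1, hw1'⟩ := hB
  obtain ⟨j, hj⟩ : ∃ j, j = w1 - (dot w1 1 • (1 : Oct a b c) + (dot w1 i / norm i) • i) :=
    ⟨_, rfl⟩
  have hj0 : j ≠ 0 := by
    intro h
    rw [h] at hj
    exact hw1' _ _ (sub_eq_zero.1 hj.symm)
  have h1i : dot 1 i = 0 := by rw [dot_comm, hi1]
  have hii : dot i i = norm i := (norm_eq_dot i).symm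
  have hj1 : dot j 1 = 0 := by
    rw [hj, dot_sub_left, dot_add_left, dot_smul_left, dot_smul_left, dot_one_one, hi1]
    ring
  have hji : dot j i = 0 := by
    rw [hj, dot_sub_left, dot_add_left, dot_smul_left, dot_smul_left, h1i, hii]
    field_simp
    ring
  have hjW : j ∈ W := by
    rw [hj]
    exact W.sub_mem hw1 (W.add_mem (W.smul_mem _ h1) (W.smul_mem _ hiW))
  have hnj : norm j ≠ 0 := fun h => hj0 (hdiv j h)
  have hnij : norm (i * j) ≠ 0 := by
    rw [Oct.norm_mul]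
    exact mul_ne_zero hni hnj
  have hijW : i * j ∈ W := hmul i hiW j hjW
  have e1 : dot (i * j) 1 = 0 := dot_mul_one hi1 hji
  have e2 : dot (i * j) i = 0 := dot_mul_i hj1
  have e3 : dot (i * j) j = 0 := dot_mul_j hi1
  obtain ⟨a', b', c', l, hT⟩ := trip_of_ij hdiv hi1 hi0 hj1 hj0 hji
  refine ⟨a', b', c', i, j, l, hT, fun w hw => ?_⟩
  by_contra hcon
  push Not at hcon
  obtain ⟨r, hr⟩ : ∃ r, r = w - (dot w 1 • (1 : Oct a b c) + (dot w i / norm i) • i +
    (dot w j / norm j) • j + (dot w (i * j) / norm (i * j)) • (i * j)) := ⟨_, rfl⟩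
  have hr0 : r ≠ 0 := by
    intro h
    rw [h] at hr
    exact hcon ⟨dot w 1, dot w i / norm i, dot w j / norm j, dot w (i * j) / norm (i * j)⟩
      (sub_eq_zero.1 hr.symm)
  have hrW : r ∈ W := by
    rw [hr]
    exact W.sub_mem hw (W.add_mem (W.add_mem (W.add_mem (W.smul_mem _ h1) (W.smul_mem _ hiW))
      (W.smul_mem _ hjW)) (W.smul_mem _ hijW))
  have hnr : norm r ≠ 0 := fun h => hr0 (hdiv r h)
  have hij : dot i j = 0 := by rw [dot_comm, hji]
  have h1j : dot 1 j = 0 := by rw [dot_comm, hj1]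
  have f1 : dot 1 (i * j) = 0 := by rw [dot_comm, e1]
  have f2 : dot i (i * j) = 0 := by rw [dot_comm, e2]
  have f3 : dot j (i * j) = 0 := by rw [dot_comm, e3]
  have hjj : dot j j = norm j := (norm_eq_dot j).symm
  have hkk : dot (i * j) (i * j) = norm (i * j) := (norm_eq_dot _).symm
  have g1 : dot r 1 = 0 := by
    rw [hr]
    simp only [dot_sub_left, dot_add_left, dot_smul_left, dot_one_one, hi1, hj1, e1]
    ring
  have g2 : dot r i = 0 := by
    rw [hr]
    simp only [dot_sub_left, dot_add_left, dot_smul_left, h1i, hii, hji, e2]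
    field_simp
    ring
  have g3 : dot r j = 0 := by
    rw [hr]
    simp only [dot_sub_left, dot_add_left, dot_smul_left, h1j, hij, hjj, e3]
    field_simp
    ring
  have g4 : dot r (i * j) = 0 := by
    rw [hr]
    simp only [dot_sub_left, dot_add_left, dot_smul_left, f1, f2, f3, hkk]
    field_simp
    ring
  have k1 : dot 1 r = 0 := by rw [dot_comm, g1]
  have k2 : dot i r = 0 := by rw [dot_comm, g2]
  have k3 : dot j r = 0 := by rw [dot_comm, g3]
  have k4 : dot (i * j) r = 0 := by rw [dot_comm, g4]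
  refine hdim ![1, i, j, i * j, r] ?_ ?_ ?_
  · intro m
    fin_cases m
    · exact h1
    · exact hiW
    · exact hjW
    · exact hijW
    · exact hrW
  · intro m
    fin_cases m
    · change norm (1 : Oct a b c) ≠ 0
      rw [norm_eq_dot, dot_one_one]
      exact one_ne_zero
    · exact hni
    · exact hnj
    · exact hnij
    · exact hnr
  · intro m n hmn
    fin_cases m <;> fin_cases n <;> first | exact absurd rfl hmn | assumption

end Vale.Agent.P011.D4.H369
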