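import Vale.Agent.P011.D4.H369.Descent
import Vale.Agent.P011.D4.H369.Pair

/-!
An idempotent of norm one of the cyclic composition lies in a quaternion subalgebra defined over
the ground field.
-/

namespace Vale.Agent.P011.D4.H369

open Vale.Agent.P011.MPQ Vale.Agent.P011.D4 Vale.Agent.P011.D4.Oct

section sp

variable {k M : Type} [Field k] [Field M] [Algebra k M] {ρ : M ≃ₐ[k] M} {a b c : kˣ}

/-- The span of `1`, `f` and the conjugates of `f`. -/
def sp (ρ : M ≃ₐ[k] M) (f : OctL M a b c) : Submodule M (OctL M a b c) :=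
  Submodule.span M {1, f, omap ρ f, omap ρ (omap ρ f)}

theorem one_mem_sp (f : OctL M a b c) : 1 ∈ sp ρ f := Submodule.subset_span (by simp)
theorem f_mem_sp (f : OctL M a b c) : f ∈ sp ρ f := Submodule.subset_span (by simp)
theorem f1_mem_sp (f : OctL M a b c) : omap ρ f ∈ sp ρ f := Submodule.subset_span (by simp)
theorem f2_mem_sp (f : OctL M a b c) : omap ρ (omap ρ f) ∈ sp ρ f :=
  Submodule.subset_span (by simp)

theorem star_mem_sp {f x : OctL M a b c} (hx : x ∈ sp ρ f) : star x ∈ sp ρ f := by
  rw [H369.star_eq x]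
  exact Submodule.sub_mem _ (Submodule.smul_mem _ _ (one_mem_sp f)) hx

theorem mul_self_mem_sp {f x : OctL M a b c} (hx : x ∈ sp ρ f) : x * x ∈ sp ρ f := by
  rw [H369.mul_self x]
  exact Submodule.sub_mem _ (Submodule.smul_mem _ _ hx) (Submodule.smul_mem _ _ (one_mem_sp f))

theorem mul_mem_of_star {f x y : OctL M a b c} (hx : x ∈ sp ρ f) (hy : y ∈ sp ρ f)
    (h : star x * star y ∈ sp ρ f) : x * y ∈ sp ρ f := by
  have e : x * y = star x * star y - (tr x * tr y) • (1 : OctL M a b c) + tr x • y + tr y • x := by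
    simp only [H369.star_eq x, H369.star_eq y, sub_mul, mul_sub, H369.smul_mul, H369.mul_smul',
      one_mul, mul_one, smul_smul, mul_comm (tr y) (tr x)]
    abel
  rw [e]
  exact Submodule.add_mem _ (Submodule.add_mem _ (Submodule.sub_mem _ h
    (Submodule.smul_mem _ _ (one_mem_sp f))) (Submodule.smul_mem _ _ hy))
    (Submodule.smul_mem _ _ hx)

theorem sp_mul (r3 : ∀ m, ρ (ρ (ρ m)) = m) {f : OctL M a b c} (hf : tri ρ f f = f)
    {x y : OctL M a b c} (hx : x ∈ sp ρ f) (hy : y ∈ sp ρ f) : x * y ∈ sp ρ f := by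
  have s12 : star (omap ρ f) * star (omap ρ (omap ρ f)) = f := by
    simpa only [tri, omap_star] using hf
  have s20 : star (omap ρ (omap ρ f)) * star f = omap ρ f := by
    have h := congrArg (omap ρ) s12
    simpa only [omap_mul, omap_star, omap_three r3] using h
  have s01 : star f * star (omap ρ f) = omap ρ (omap ρ f) := by
    have h := congrArg (omap ρ) s20
    simpa only [omap_mul, omap_star, omap_three r3] using h
  have p21 : omap ρ (omap ρ f) * omap ρ f = star f := by
    have h := congrArg star s12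
    simpa only [star_mul, star_star] using h
  have p02 : f * omap ρ (omap ρ f) = star (omap ρ f) := by
    have h := congrArg star s20
    simpa only [star_mul, star_star] using h
  have p10 : omap ρ f * f = star (omap ρ (omap ρ f)) := by
    have h := congrArg star s01
    simpa only [star_mul, star_star] using h
  have m0 := f_mem_sp (ρ := ρ) f
  have m1 := f1_mem_sp (ρ := ρ) f
  have m2 := f2_mem_sp (ρ := ρ) f
  have key : ∀ u ∈ ({1, f, omap ρ f, omap ρ (omap ρ f)} : Set (OctL M a b c)),
      ∀ v ∈ ({1, f, omap ρ f, omap ρ (omap ρ f)} : Set (OctL M a b c)), u * v ∈ sp ρ f := by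
    intro u hu v hv
    have hu' : u ∈ sp ρ f := Submodule.subset_span hu
    have hv' : v ∈ sp ρ f := Submodule.subset_span hv
    simp only [Set.mem_insert_iff, Set.mem_singleton_iff] at hu hv
    rcases hu with rfl | rfl | rfl | rfl
    · rwa [one_mul]
    · rcases hv with rfl | rfl | rfl | rfl
      · rwa [mul_one]
      · exact mul_self_mem_sp hv'
      · exact mul_mem_of_star m0 m1 (by rw [s01]; exact m2)
      · rw [p02]
        exact star_mem_sp m1
    · rcases hv with rfl | rfl | rfl | rfl
      · rwa [mul_one]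
      · rw [p10]
        exact star_mem_sp m2
      · exact mul_self_mem_sp hv'
      · exact mul_mem_of_star m1 m2 (by rw [s12]; exact m0)
    · rcases hv with rfl | rfl | rfl | rfl
      · rwa [mul_one]
      · exact mul_mem_of_star m2 m0 (by rw [s20]; exact m1)
      · rw [p21]
        exact star_mem_sp m0
      · exact mul_self_mem_sp hv'
  have key2 : ∀ u ∈ ({1, f, omap ρ f, omap ρ (omap ρ f)} : Set (OctL M a b c)),
      ∀ v ∈ sp ρ f, u * v ∈ sp ρ f := by
    intro u hu v hv
    induction hv using Submodule.span_induction with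
    | mem v hv => exact key u hu v hv
    | zero =>
      rw [mul_zero]
      exact Submodule.zero_mem _
    | add v w _ _ hv hw =>
      rw [mul_add]
      exact Submodule.add_mem _ hv hw
    | smul t v _ hv =>
      rw [H369.mul_smul']
      exact Submodule.smul_mem _ _ hv
  revert y
  induction hx using Submodule.span_induction with
  | mem x hx => exact fun {y} hy => key2 x hx y hy
  | zero =>
    intro y _
    rw [zero_mul]
    exact Submodule.zero_mem _
  | add v w _ _ hv hw =>
    intro y hy
    rw [add_mul]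
    exact Submodule.add_mem _ (hv hy) (hw hy)
  | smul t v _ hv =>
    intro y hy
    rw [H369.smul_mul]
    exact Submodule.smul_mem _ _ (hv hy)

theorem omap_mem_sp {σ : M ≃ₐ[k] M} {f : OctL M a b c}
    (h : ∀ u ∈ ({1, f, omap ρ f, omap ρ (omap ρ f)} : Set (OctL M a b c)), omap σ u ∈ sp ρ f)
    {x : OctL M a b c} (hx : x ∈ sp ρ f) : omap σ x ∈ sp ρ f := by
  induction hx using Submodule.span_induction with
  | mem x hx => exact h x hx
  | zero =>
    rw [omap_zero]
    exact Submodule.zero_mem _
  | add v w _ _ hv hw =>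
    rw [omap_add]
    exact Submodule.add_mem _ hv hw
  | smul t v _ hv =>
    rw [omap_smul]
    exact Submodule.smul_mem _ _ hv

theorem finrank_sp (f : OctL M a b c) : Module.finrank M (sp ρ f) ≤ 4 := by
  classical
  have h := finrank_span_finset_le_card (R := M)
    ({1, f, omap ρ f, omap ρ (omap ρ f)} : Finset (OctL M a b c))
  have h2 : (({1, f, omap ρ f, omap ρ (omap ρ f)} : Finset (OctL M a b c)) : Set (OctL M a b c)) =
      {1, f, omap ρ f, omap ρ (omap ρ f)} := by simp
  have h3 : ({1, f, omap ρ f, omap ρ (omap ρ f)} : Finset (OctL M a b c)).card ≤ 4 :=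
    Finset.card_le_four
  rw [Set.finrank, h2] at h
  exact h.trans h3

theorem linInd_of_orth (u : Fin 5 → Oct a b c) (hn : ∀ m, norm (u m) ≠ 0)
    (ho : ∀ m n, m ≠ n → dot (u m) (u n) = 0) : LinearIndependent M (fun m => oup M (u m)) := by
  rw [Fintype.linearIndependent_iff]
  intro g hg m
  have h := congrArg (H369.dotL (oup M (u m))) hg
  rw [map_sum, map_zero, Finset.sum_eq_single m] at h
  · change dot (g m • oup M (u m)) (oup M (u m)) = 0 at h
    rw [H369.dot_smul_left, H369.dot_oup, mul_eq_zero] at h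
    refine h.resolve_right ?_
    rw [← norm_eq_dot]
    exact fun h0 => hn m (FaithfulSMul.algebraMap_injective k M (by rw [h0, map_zero]))
  · intro n _ hnm
    change dot (g n • oup M (u n)) (oup M (u m)) = 0
    rw [H369.dot_smul_left, H369.dot_oup, ho n m hnm, map_zero, mul_zero]
  · intro h0
    exact absurd (Finset.mem_univ m) h0

end sp

section main

variable {k E M : Type} [Field k] [Field E] [Field M] [Algebra k E] [Algebra k M] [Algebra E M]
  {ρ : M ≃ₐ[k] M} {I : Set (M ≃ₐ[k] M)} {a b c : kˣ}

theorem oup_qemb {a' b' : kˣ} (i j : Oct a b c) (x : Qt a' b') :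
    oup M (qemb i j x) = qemb (oup M i) (oup M j) (qup M x : Qt (up M a') (up M b')) := by
  simp only [qemb, H369.oup_add, H369.oup_smul, H369.oup_mul, H369.oup_one]
  rfl

/-- **Descent.** An idempotent of norm one lies in a quaternion subalgebra defined over `k`. -/
theorem desc (hU : SetU k E M ρ I) (hdiv : Division a b c) (f : OctL M a b c)
    (hf : tri ρ f f = f) (hI : ∀ ι ∈ I, invo ι f = f) :
    ∃ (a' b' c' : kˣ) (i j l : Oct a b c), Trip a' b' c' i j l ∧
      ∃ x : Qt (up M a') (up M b'), f = qemb (oup M i) (oup M j) x := by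
  have hιf : ∀ ι ∈ I, omap ι f = star f := by
    intro ι hι
    have h := congrArg (omap ι) (hI ι hι)
    rw [invo, omap_two (hU.ii ι hι)] at h
    exact h.symm
  have hιρ : ∀ ι ∈ I, ∀ x : OctL M a b c, omap ι (omap ρ x) = omap ρ (omap ρ (omap ι x)) := by
    intro ι hι x
    have h := omap_iri (hU.iri ι hι) (omap ι x)
    rwa [omap_two (hU.ii ι hι)] at h
  have hρV : ∀ v ∈ sp ρ f, omap ρ v ∈ sp ρ f := by
    intro v hv
    refine omap_mem_sp ?_ hv
    intro u hu
    simp only [Set.mem_insert_iff, Set.mem_singleton_iff] at hu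
    rcases hu with rfl | rfl | rfl | rfl
    · rw [omap_one]
      exact one_mem_sp f
    · exact f1_mem_sp _
    · exact f2_mem_sp _
    · rw [omap_three hU.r3]
      exact f_mem_sp _
  have hιV : ∀ ι ∈ I, ∀ v ∈ sp ρ f, omap ι v ∈ sp ρ f := by
    intro ι hι v hv
    refine omap_mem_sp ?_ hv
    intro u hu
    simp only [Set.mem_insert_iff, Set.mem_singleton_iff] at hu
    rcases hu with rfl | rfl | rfl | rfl
    · rw [omap_one]
      exact one_mem_sp f
    · rw [hιf ι hι]
      exact star_mem_sp (f_mem_sp _)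
    · rw [hιρ ι hι, hιf ι hι, H369.omap_star, H369.omap_star]
      exact star_mem_sp (f2_mem_sp _)
    · rw [hιρ ι hι, hιρ ι hι, hιf ι hι, H369.omap_star, H369.omap_star, H369.omap_star,
        H369.omap_star, omap_three hU.r3]
      exact star_mem_sp (f1_mem_sp _)
  obtain ⟨H, hH1, hH2, hH3⟩ := exists_H hU
  have hHV : ∀ h ∈ H, ∀ v ∈ sp ρ f, omap h v ∈ sp ρ f := by
    apply hH3 (fun h => ∀ v ∈ sp ρ f, omap h v ∈ sp ρ f)
    · intro v hv
      exact hv
    · rintro γ hγ h hh v hv
      rw [omap_comp]
      rcases hγ with rfl | hγ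
      · exact hρV _ (hh v hv)
      · exact hιV γ hγ _ (hh v hv)
  have hdesc := descent {γ : M ≃ₐ[k] M | γ = ρ ∨ γ ∈ I} H hH1 hH2 (sp ρ f) hHV
    (f_mem_sp (ρ := ρ) f)
  let W : Submodule k (Oct a b c) :=
    { carrier := {w | oup M w ∈ sp ρ f}
      add_mem' := by
        intro x y hx hy
        change oup M (x + y) ∈ sp ρ f
        rw [H369.oup_add]
        exact Submodule.add_mem _ hx hy
      zero_mem' := by
        change oup M 0 ∈ sp ρ f
        rw [H369.oup_zero]
        exact Submodule.zero_mem _
      smul_mem' := by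
        intro t x hx
        change oup M (t • x) ∈ sp ρ f
        rw [H369.oup_smul]
        exact Submodule.smul_mem _ _ hx }
  obtain ⟨a', b', c', i, j, l, hT, hW⟩ := exists_pair_of_sub hdiv W
    (by
      change oup M 1 ∈ sp ρ f
      rw [H369.oup_one]
      exact one_mem_sp f)
    (by
      intro x hx y hy
      change oup M (x * y) ∈ sp ρ f
      rw [H369.oup_mul]
      exact sp_mul hU.r3 hf hx hy)
    (by
      intro u hu hn ho
      have h1 := linInd_of_orth (M := M) u hn ho
      have h2 : LinearIndependent M (fun m => (⟨oup M (u m), hu m⟩ : sp ρ f)) :=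
        LinearIndependent.of_comp (sp ρ f).subtype h1
      have : FiniteDimensional M (sp ρ f) := by
        rw [sp]
        exact FiniteDimensional.span_of_finite M (Set.toFinite _)
      have h3 := h2.fintype_card_le_finrank
      rw [Fintype.card_fin] at h3
      have h4 := finrank_sp (ρ := ρ) f
      omega)
  refine ⟨a', b', c', i, j, l, hT, ?_⟩
  have hle : ∀ v ∈ Submodule.span M {w : OctL M a b c | w ∈ sp ρ f ∧
      ∀ γ ∈ {γ : M ≃ₐ[k] M | γ = ρ ∨ γ ∈ I}, omap γ w = w},
      ∃ x : Qt (up M a') (up M b'), v = qemb (oup M i) (oup M j) x := by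
    intro v hv
    induction hv using Submodule.span_induction with
    | mem w hw =>
      obtain ⟨w0, hw0⟩ := exists_oup hU w (hw.2 ρ (Or.inl rfl)) (fun ι hι => hw.2 ι (Or.inr hι))
      obtain ⟨x, hx⟩ := hW w0 (by
        change oup M w0 ∈ sp ρ f
        rw [hw0]
        exact hw.1)
      refine ⟨qup M x, ?_⟩
      rw [← hw0, hx, oup_qemb]
    | zero => exact ⟨0, by simp [qemb]⟩
    | add v w _ _ hv hw =>
      obtain ⟨x, rfl⟩ := hv
      obtain ⟨y, rfl⟩ := hw
      exact ⟨x + y, (qemb_add x y).symm⟩
    | smul t v _ hv =>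
      obtain ⟨x, rfl⟩ := hv
      exact ⟨t • x, (qemb_smul t x).symm⟩
  exact hle f hdesc

end main

end Vale.Agent.P011.D4.H369
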