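import Vale.Agent.P011.D4.H369.Alg

/-!
Galois descent for subspaces of octonions over `M`.
-/

namespace Vale.Agent.P011.D4.H369

open Vale.Agent.P011.MPQ Vale.Agent.P011.D4 Vale.Agent.P011.D4.Oct

section descent

variable {k M : Type} [Field k] [Field M] [Algebra k M] {a b c : kˣ}

theorem sum_mul_left {A : Type} [AddCommMonoid A] (H : Finset (M ≃ₐ[k] M)) (γ : M ≃ₐ[k] M)
    (hγ : ∀ h ∈ H, γ * h ∈ H) (F : (M ≃ₐ[k] M) → A) : ∑ h ∈ H, F (γ * h) = ∑ h ∈ H, F h := by
  classical
  have hinj : Function.Injective (fun h : M ≃ₐ[k] M => γ * h) := mul_right_injective γ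
  have him : H.image (fun h => γ * h) = H := by
    apply Finset.eq_of_subset_of_card_le
    · intro x hx
      obtain ⟨y, hy, rfl⟩ := Finset.mem_image.1 hx
      exact hγ y hy
    · rw [Finset.card_image_of_injective _ hinj]
  conv_rhs => rw [← him]
  rw [Finset.sum_image (fun x _ y _ h => hinj h)]

theorem linInd_aut : LinearIndependent M (fun h : M ≃ₐ[k] M => (fun x : M => h x)) := by
  have h := (linearIndependent_monoidHom M M).comp
    (fun h : M ≃ₐ[k] M => ((h : M →+* M) : M →* M)) (by
      intro g h hgh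
      apply AlgEquiv.ext
      intro x
      exact DFunLike.congr_fun hgh x)
  exact h

/-- Galois descent: a stable subspace is spanned by its fixed vectors. -/
theorem descent (G0 : Set (M ≃ₐ[k] M)) (H : Finset (M ≃ₐ[k] M)) (h1 : 1 ∈ H)
    (hH : ∀ γ ∈ G0, ∀ h ∈ H, γ * h ∈ H) (V : Submodule M (OctL M a b c))
    (hV : ∀ h ∈ H, ∀ v ∈ V, omap h v ∈ V) {v : OctL M a b c} (hv : v ∈ V) :
    v ∈ Submodule.span M {w : OctL M a b c | w ∈ V ∧ ∀ γ ∈ G0, omap γ w = w} := by
  by_contra hcon
  obtain ⟨ψ, hψ, hψ0⟩ := Submodule.exists_dual_map_eq_bot_of_notMem hcon inferInstance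
  have hz : ∀ w, w ∈ V → (∀ γ ∈ G0, omap γ w = w) → ψ w = 0 := by
    intro w hw hw'
    have hmem : ψ w ∈ (Submodule.span M {w : OctL M a b c | w ∈ V ∧ ∀ γ ∈ G0, omap γ w = w}).map ψ :=
      Submodule.mem_map_of_mem (Submodule.subset_span ⟨hw, hw'⟩)
    rw [hψ0] at hmem
    exact (Submodule.mem_bot M).1 hmem
  have key : ∀ t : M, ∑ h ∈ H, h t * ψ (omap h v) = 0 := by
    intro t
    have h2 := hz (∑ h ∈ H, omap h (t • v)) (Submodule.sum_mem _ fun h hh =>
      hV h hh _ (Submodule.smul_mem _ _ hv)) (by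
        intro γ hγ
        have h3 : omap γ (∑ h ∈ H, omap h (t • v)) = ∑ h ∈ H, omap γ (omap h (t • v)) :=
          map_sum (omapA γ) _ _
        rw [h3]
        exact sum_mul_left H γ (hH γ hγ) (fun h => omap h (t • v)))
    rw [map_sum] at h2
    rw [← h2]
    refine Finset.sum_congr rfl fun h _ => ?_
    rw [omap_smul, map_smul, smul_eq_mul]
  have hli := linearIndependent_iff'.1 (linInd_aut (k := k) (M := M)) H (fun h => ψ (omap h v))
    (by
      funext t
      rw [Finset.sum_apply]
      simp only [Pi.smul_apply, smul_eq_mul, Pi.zero_apply]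
      rw [← key t]
      exact Finset.sum_congr rfl fun h _ => mul_comm _ _) 1 h1
  exact hψ hli

end descent

section finset

variable {k E M : Type} [Field k] [Field E] [Field M] [Algebra k E] [Algebra k M] [Algebra E M]
  {ρ : M ≃ₐ[k] M} {I : Set (M ≃ₐ[k] M)} {a b c : kˣ}

/-- The finite group generated by `ρ` and `I`. -/
theorem exists_H (hU : SetU k E M ρ I) : ∃ H : Finset (M ≃ₐ[k] M), 1 ∈ H ∧
    (∀ γ ∈ {γ : M ≃ₐ[k] M | γ = ρ ∨ γ ∈ I}, ∀ h ∈ H, γ * h ∈ H) ∧
    ∀ P : (M ≃ₐ[k] M) → Prop, P 1 → (∀ γ ∈ {γ : M ≃ₐ[k] M | γ = ρ ∨ γ ∈ I}, ∀ h, P h → P (γ * h)) →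
      ∀ h ∈ H, P h := by
  classical
  have hr : ρ * (ρ * ρ) = 1 := by
    apply AlgEquiv.ext
    intro x
    exact hU.r3 x
  rcases I.eq_empty_or_nonempty with rfl | ⟨ι, hι⟩
  · refine ⟨{1, ρ, ρ * ρ}, by simp, ?_, ?_⟩
    · rintro γ (rfl | h)
      · intro h hh
        simp only [Finset.mem_insert, Finset.mem_singleton] at hh
        rcases hh with rfl | rfl | rfl
        · simp
        · simp
        · simp [hr]
      · exact absurd h (Set.notMem_empty γ)
    · intro P h1 hP h hh
      simp only [Finset.mem_insert, Finset.mem_singleton] at hh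
      have hρ := hP ρ (Or.inl rfl)
      rcases hh with rfl | rfl | rfl
      · exact h1
      · have h2 := hρ 1 h1
        rwa [mul_one] at h2
      · have h2 := hρ 1 h1
        rw [mul_one] at h2
        exact hρ _ h2
  · have hI : ∀ γ, γ ∈ I → γ = ι := fun γ hγ => hU.sub hγ hι
    have hii : ι * ι = 1 := by
      apply AlgEquiv.ext
      intro x
      exact hU.ii ι hι x
    have hiri : ι * ρ = ρ * ρ * ι := by
      have h : ι * (ρ * ι) = ρ * ρ := by
        apply AlgEquiv.ext
        intro x
        exact hU.iri ι hι x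
      have h2 := congrArg (fun z => z * ι) h
      simp only [mul_assoc, hii, mul_one] at h2
      rw [h2, mul_assoc]
    have hir : ∀ x, ι * (ρ * x) = ρ * (ρ * (ι * x)) := by
      intro x
      rw [← mul_assoc, hiri, mul_assoc, mul_assoc]
    have hrr : ∀ x, ρ * (ρ * (ρ * x)) = x := by
      intro x
      have : ρ * (ρ * (ρ * x)) = ρ * (ρ * ρ) * x := by simp only [mul_assoc]
      rw [this, hr, one_mul]
    have hir1 : ι * ρ = ρ * (ρ * ι) := by rw [hiri, mul_assoc]
    refine ⟨{1, ρ, ρ * ρ, ι, ρ * ι, ρ * (ρ * ι)}, by simp, ?_, ?_⟩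
    · rintro γ (rfl | h)
      · intro h hh
        simp only [Finset.mem_insert, Finset.mem_singleton] at hh ⊢
        rcases hh with rfl | rfl | rfl | rfl | rfl | rfl
        · simp
        · simp
        · simp [hr]
        · simp
        · simp
        · simp [hrr]
      · rw [hI γ h]
        intro h hh
        simp only [Finset.mem_insert, Finset.mem_singleton] at hh ⊢
        rcases hh with rfl | rfl | rfl | rfl | rfl | rfl
        · simp
        · rw [hir1]
          simp
        · rw [hir, hir1, hrr]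
          simp
        · simp [hii]
        · rw [hir, hii, mul_one]
          simp
        · rw [hir, hir, hii, mul_one, hrr]
          simp
    · intro P h1 hP h hh
      simp only [Finset.mem_insert, Finset.mem_singleton] at hh
      have hρ := hP ρ (Or.inl rfl)
      have hι' := hP ι (Or.inr hι)
      have h2 : P ρ := by
        have h2 := hρ 1 h1
        rwa [mul_one] at h2
      have h3 : P ι := by
        have h2 := hι' 1 h1
        rwa [mul_one] at h2
      rcases hh with rfl | rfl | rfl | rfl | rfl | rfl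
      · exact h1
      · exact h2
      · exact hρ _ h2
      · exact h3
      · exact hρ _ h3
      · exact hρ _ (hρ _ h3)

end finset

end Vale.Agent.P011.D4.H369
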