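import Vale.Agent.P011.D4.H369.Cen
import Vale.Agent.P011.D4.Springer
import Vale.Agent.P011.D4.H369.Stab

/-!
A nontrivial normal subgroup of a trialitarian group contains a nontrivial element that fixes
the unit element.
-/

namespace Vale.Agent.P011.D4.H369

open Vale.Agent.P011.MPQ Vale.Agent.P011.D4 Vale.Agent.P011.D4.Oct

section cj

variable {F : Type} [Field F] {a b c : Fˣ}

/-- The conjugation by a quaternion. -/
def qc (u z : Qt a b) : Qt a b := (nrd u)⁻¹ • (u * z * star u)

theorem qc_add (u z w : Qt a b) : qc u (z + w) = qc u z + qc u w := by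
  simp only [qc, _root_.mul_add, _root_.add_mul, smul_add]

theorem qc_smul (u : Qt a b) (t : F) (z : Qt a b) : qc u (t • z) = t • qc u z := by
  simp only [qc, mul_smul_comm, smul_mul_assoc]
  rw [smul_comm]

theorem qc_mul {u : Qt a b} (hu : nrd u ≠ 0) (z w : Qt a b) : qc u (z * w) = qc u z * qc u w := by
  have e1 : u * z * star u * (u * w * star u) = u * z * (star u * u) * w * star u := by
    simp only [_root_.mul_assoc]
  rw [qc, qc, qc, smul_mul_smul_comm, e1, qt_star_mul, mul_smul_comm, _root_.mul_one,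
    smul_mul_assoc, smul_mul_assoc, smul_smul, _root_.mul_assoc u z w]
  congr 1
  field_simp

theorem qc_star (u z : Qt a b) : qc u (star z) = star (qc u z) := by
  rw [qc, qc, QuaternionAlgebra.star_smul, star_mul, star_mul, star_star, _root_.mul_assoc]

theorem star_of_re {z : Qt a b} (h : z.re = 0) : star z = -z := by
  apply QuaternionAlgebra.ext
  · rw [QuaternionAlgebra.re_star, QuaternionAlgebra.re_neg, h]
    ring
  · simp
  · simp
  · simp

theorem nrd_smul' (t : F) (u : Qt a b) : nrd (t • u) = t ^ 2 * nrd u := by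
  simp only [nrd, QuaternionAlgebra.re_smul, QuaternionAlgebra.imI_smul,
    QuaternionAlgebra.imJ_smul, QuaternionAlgebra.imK_smul, smul_eq_mul]
  ring

theorem nrd_star' (u : Qt a b) : nrd (star u) = nrd u := by
  simp [nrd]

theorem qc_qc {u : Qt a b} (hu : nrd u ≠ 0) (z : Qt a b) : qc (star u) (qc u z) = z := by
  have e1 : star u * (u * z * star u) * star (star u) = (star u * u) * z * (star u * u) := by
    rw [star_star]
    simp only [_root_.mul_assoc]
  rw [qc, qc, mul_smul_comm, smul_mul_assoc, e1, qt_star_mul, smul_mul_assoc, _root_.one_mul,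
    mul_smul_comm, _root_.mul_one, smul_smul, smul_smul, smul_smul, nrd_star']
  have e2 : (nrd u)⁻¹ * (nrd u)⁻¹ * nrd u * nrd u = 1 := by
    field_simp
  rw [e2, one_smul]

/-- The automorphism of the octonion algebra given by the conjugation by a quaternion. -/
def cjU (c : Fˣ) (u : Qt a b) (hu : nrd u ≠ 0) : AutC a b c :=
  ⟨{ toFun := fun x => ⟨qc u x.fst, qc u x.snd⟩
     invFun := fun x => ⟨qc (star u) x.fst, qc (star u) x.snd⟩
     map_add' := fun x y => Oct.ext (qc_add u _ _) (qc_add u _ _)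
     map_smul' := fun t x => Oct.ext (qc_smul u t _) (qc_smul u t _)
     left_inv := fun x => Oct.ext (qc_qc hu _) (qc_qc hu _)
     right_inv := fun x => by
      have hu' : nrd (star u) ≠ 0 := by rwa [nrd_star']
      have h : ∀ z, qc u (qc (star u) z) = z := fun z => by
        have := qc_qc hu' z
        rwa [star_star] at this
      exact Oct.ext (h _) (h _) }, fun x y => by
    apply Oct.ext
    · change qc u (x.fst * y.fst + (c : F) • (star y.snd * x.snd)) =
        qc u x.fst * qc u y.fst + (c : F) • (star (qc u y.snd) * qc u x.snd)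
      rw [qc_add, qc_mul hu, qc_smul, qc_mul hu, qc_star]
    · change qc u (y.snd * x.fst + x.snd * star y.fst) =
        qc u y.snd * qc u x.fst + qc u x.snd * star (qc u y.fst)
      rw [qc_add, qc_mul hu, qc_mul hu, qc_star]⟩

end cj

section cjM

variable {k E M : Type} [Field k] [Field E] [Field M] [Algebra k E] [Algebra k M] [Algebra E M]
  [IsScalarTower k E M] {ρ : M ≃ₐ[k] M} {I : Set (M ≃ₐ[k] M)} {a b c : kˣ}

omit [IsScalarTower k E M] in
theorem qup_qc (u z : Qt a b) : qup M (qc u z) = qc (qup M u) (qup M z) := by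
  rw [qc, qc, D4.qup_smul, D4.qup_mul, D4.qup_mul, D4.qup_star, nrd_qup, map_inv₀]

theorem nrd_qup_ne {u : Qt a b} (hu : nrd u ≠ 0) : nrd (qup M u) ≠ 0 := by
  rw [nrd_qup]
  exact fun h => hu ((map_eq_zero _).1 h)

theorem e_cjU {e : AutC a b c →* TriU ρ I a b c} (he : IsExtU ρ I e) (u : Qt a b)
    (hu : nrd u ≠ 0) (y : OctL M a b c) :
    (e (cjU c u hu)).1 y = ⟨qc (qup M u) y.fst, qc (qup M u) y.snd⟩ := by
  have h : (e (cjU c u hu)).1 = (cjU (up M c) (qup M u) (nrd_qup_ne hu)).1 := by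
    apply H24.equiv_unique
    intro x
    rw [he]
    exact Oct.ext (qup_qc u _) (qup_qc u _)
  rw [h]
  rfl

omit [IsScalarTower k E M] in
theorem qEM_smul' (t : E) (z : Qt (up E a) (up E b)) :
    (qEM M (t • z) : Qt (up M a) (up M b)) = algebraMap E M t • qEM M z := by
  ext <;> simp [-algebraMap_smul]

theorem qEM_qup (u : Qt a b) : (qEM M (qup E u) : Qt (up M a) (up M b)) = qup M u := by
  ext <;> simp [← IsScalarTower.algebraMap_apply]

theorem qEM_qc (u : Qt a b) (z : Qt (up E a) (up E b)) :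
    (qEM M (qc (qup E u) z) : Qt (up M a) (up M b)) = qc (qup M u) (qEM M z) := by
  rw [qc, qc, qEM_smul', qEM_mul, qEM_mul, qEM_star, qEM_qup, map_inv₀, ← nrd_qEM (k := k),
    qEM_qup]

omit [IsScalarTower k E M] in
theorem qmap_qc (σ : M ≃ₐ[k] M) (u : Qt a b) (z : Qt (up M a) (up M b)) :
    qmap σ (qc (qup M u) z) = qc (qup M u) (qmap σ z) := by
  rw [qc, qc, D4.qmap_smul, D4.qmap_mul, D4.qmap_mul, D4.qmap_star, D4.qmap_qup, map_inv₀,
    ← D4.nrd_qmap, D4.qmap_qup]

/-- The conjugate of a short element. -/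
theorem e_cjU_short {e : AutC a b c →* TriU ρ I a b c}
    (he : IsExtU ρ I e) {s : SL1 (up E a) (up E b) →* TriU ρ I a b c} (hs : IsShortU ρ I s)
    (u : Qt a b) (hu : nrd u ≠ 0) (x x' : SL1 (up E a) (up E b))
    (hx : ((x' : (Qt (up E a) (up E b))ˣ) : Qt (up E a) (up E b)) =
      qc (qup E u) ((x : (Qt (up E a) (up E b))ˣ) : Qt (up E a) (up E b))) :
    e (cjU c u hu) * s x = s x' * e (cjU c u hu) := by
  apply Subtype.ext
  apply LinearEquiv.ext
  intro y
  change (e (cjU c u hu)).1 ((s x).1 y) = (s x').1 ((e (cjU c u hu)).1 y)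
  rw [hs, hs, e_cjU he, e_cjU he, hx, qEM_qc]
  have hu' := nrd_qup_ne (M := M) hu
  apply Oct.ext
  · simp only [shortFun, qmap_qc, qc_mul hu', qc_star]
  · simp only [shortFun, qmap_qc, qc_mul hu', qc_star]

omit [IsScalarTower k E M] in
theorem qEM_injective : Function.Injective
    (qEM M : Qt (up E a) (up E b) → Qt (up M a) (up M b)) := by
  intro x y h
  have hi := (algebraMap E M).injective
  exact QuaternionAlgebra.ext (hi (congrArg QuaternionAlgebra.re h))
    (hi (congrArg QuaternionAlgebra.imI h)) (hi (congrArg QuaternionAlgebra.imJ h))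
    (hi (congrArg QuaternionAlgebra.imK h))

/-- The short elements over the ground field fix the unit element. -/
theorem short_one {s : SL1 (up E a) (up E b) →* TriU ρ I a b c} (hs : IsShortU ρ I s)
    (x : SL1 (up E a) (up E b)) {q : Qt a b}
    (hq : ((x : (Qt (up E a) (up E b))ˣ) : Qt (up E a) (up E b)) = qup E q) : (s x).1 1 = 1 := by
  have hn : nrd q = 1 := by
    apply (algebraMap k E).injective
    rw [← nrd_qup, ← hq, map_one]
    exact x.2
  rw [hs, hq, qEM_qup]
  apply Oct.ext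
  · change qup M q * 1 * star (qmap ρ (qmap ρ (qup M q))) = 1
    rw [D4.qmap_qup, D4.qmap_qup, _root_.mul_one, qt_mul_star, nrd_qup, hn, map_one, one_smul]
  · change 0 * _ = 0
    rw [MulZeroClass.zero_mul]

/-- The map to the short subgroup is injective. -/
theorem short_ne_one {s : SL1 (up E a) (up E b) →* TriU ρ I a b c} (hs : IsShortU ρ I s)
    (x : SL1 (up E a) (up E b)) (hx : x ≠ 1) : s x ≠ 1 := by
  intro h
  apply hx
  have h1 := congrArg (fun g : TriU ρ I a b c => (g.1 ⟨0, 1⟩).snd) h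
  change ((s x).1 ⟨0, 1⟩).snd = 1 at h1
  rw [hs] at h1
  change 1 * star (qmap ρ (qEM M ((x : (Qt (up E a) (up E b))ˣ) : Qt (up E a) (up E b)))) = 1 at h1
  rw [_root_.one_mul] at h1
  have h2 := congrArg star h1
  rw [star_star, star_one] at h2
  have h3 : qEM M ((x : (Qt (up E a) (up E b))ˣ) : Qt (up E a) (up E b)) =
      (qEM M (1 : Qt (up E a) (up E b)) : Qt (up M a) (up M b)) := by
    rw [qEM_one]
    have hi := ρ.injective
    apply QuaternionAlgebra.ext
    · exact hi ((congrArg QuaternionAlgebra.re h2).trans (map_one ρ).symm)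
    · exact hi ((congrArg QuaternionAlgebra.imI h2).trans (map_zero ρ).symm)
    · exact hi ((congrArg QuaternionAlgebra.imJ h2).trans (map_zero ρ).symm)
    · exact hi ((congrArg QuaternionAlgebra.imK h2).trans (map_zero ρ).symm)
  exact Subtype.ext (Units.ext (qEM_injective h3))

/-- The property used for the nonplanar case. -/
def NonPure (k E : Type) [Field k] [Field E] [Algebra k E] (a b : kˣ) : Prop :=
  ∀ x : Qt (up E a) (up E b), nrd x = 1 → x ≠ 1 → x ≠ -1 →
    ∃ z : Qt (up E a) (up E b), nrd z = 1 ∧ ∃ u : Qt a b, u.re ≠ 0 ∧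
      (z * x * star z * qup E u).re = 0

omit [IsScalarTower k E M] in
/-- The identity in the quaternion algebra. -/
theorem quat_id (w : Qt (up E a) (up E b)) (hw : nrd w = 1) {u : Qt a b}
    (hu : nrd u ≠ 0) (h0 : (w * qup E u).re = 0) :
    w * qc (qup E u) w = qup E (-(nrd u)⁻¹ • (star u * star u)) := by
  set v := qup E u with hv
  have hn : nrd v = algebraMap k E (nrd u) := nrd_qup u
  have hv0 : nrd v ≠ 0 := nrd_qup_ne hu
  have h1 : (w * v) * (w * v) = -(nrd v) • (1 : Qt (up E a) (up E b)) := by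
    have h2 : star (w * v) = -(w * v) := star_of_re h0
    have h3 := qt_star_mul (w * v)
    rw [h2, neg_mul, nrd_mul, hw, _root_.one_mul] at h3
    rw [neg_smul, ← h3, neg_neg]
  have h4 : w * v * w = -star v := by
    have h5 : (w * v * w) * v * star v = -(nrd v) • star v := by
      have h6 : w * v * w * v = -(nrd v) • (1 : Qt (up E a) (up E b)) := by
        rw [← h1]
        simp only [_root_.mul_assoc]
      rw [h6, smul_mul_assoc, _root_.one_mul]
    rw [_root_.mul_assoc _ v, qt_mul_star, mul_smul_comm, _root_.mul_one] at h5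
    have h7 : nrd v • (w * v * w) = nrd v • (-star v) := by
      rw [h5, smul_neg, neg_smul]
    exact smul_right_injective _ hv0 h7
  have h8 : w * qc v w = (nrd v)⁻¹ • ((w * v * w) * star v) := by
    rw [qc, mul_smul_comm]
    simp only [_root_.mul_assoc]
  rw [h8, h4, neg_mul, smul_neg, D4.qup_smul, D4.qup_mul, D4.qup_star, map_neg, map_inv₀, ← hn,
    neg_smul]

/-- The case of a short element. -/
theorem short_case [CharZero k] (hab : Aniso a b) (hnp : NonPure k E a b)
    {e : AutC a b c →* TriU ρ I a b c} (he : IsExtU ρ I e)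
    {s : SL1 (up E a) (up E b) →* TriU ρ I a b c} (hs : IsShortU ρ I s)
    (N : Subgroup (TriU ρ I a b c)) (hN : N.Normal) (x : SL1 (up E a) (up E b)) (hx : x ≠ 1)
    (hxN : s x ∈ N) : ∃ n ∈ N, n ≠ 1 ∧ n.1 1 = 1 := by
  by_cases hq : ((x : (Qt (up E a) (up E b))ˣ) : Qt (up E a) (up E b)) = -1
  · exact ⟨s x, hxN, short_ne_one hs x hx, short_one hs x (q := -1) (by
      rw [hq, D4.qup_neg, D4.qup_one])⟩
  have hx1 : ((x : (Qt (up E a) (up E b))ˣ) : Qt (up E a) (up E b)) ≠ 1 := fun h =>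
    hx (Subtype.ext (Units.ext h))
  have hstar : ∀ z : SL1 (up E a) (up E b),
      (((z⁻¹ : SL1 (up E a) (up E b)) : (Qt (up E a) (up E b))ˣ) : Qt (up E a) (up E b)) =
        star ((z : (Qt (up E a) (up E b))ˣ) : Qt (up E a) (up E b)) := by
    intro z
    have hz : nrd ((z : (Qt (up E a) (up E b))ˣ) : Qt (up E a) (up E b)) = 1 := z.2
    have h1 := qt_star_mul ((z : (Qt (up E a) (up E b))ˣ) : Qt (up E a) (up E b))
    rw [hz, one_smul] at h1
    have h2 : star ((z : (Qt (up E a) (up E b))ˣ) : Qt (up E a) (up E b)) *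
        ((z : (Qt (up E a) (up E b))ˣ) : Qt (up E a) (up E b)) *
        (((z : (Qt (up E a) (up E b))ˣ)⁻¹ : (Qt (up E a) (up E b))ˣ) : Qt (up E a) (up E b)) =
        (((z : (Qt (up E a) (up E b))ˣ)⁻¹ : (Qt (up E a) (up E b))ˣ) : Qt (up E a) (up E b)) := by
      rw [h1, _root_.one_mul]
    rw [Units.mul_inv_cancel_right] at h2
    exact h2.symm
  obtain ⟨y, hy, u, hu, h0⟩ := hnp _ x.2 hx1 hq
  have hu0 : nrd u ≠ 0 := by
    intro h
    rw [hab u h] at hu
    exact hu rfl
  obtain ⟨Y, hY⟩ := exists_SL1 hy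
  set X := Y * x * Y⁻¹ with hX
  have hXv : ((X : (Qt (up E a) (up E b))ˣ) : Qt (up E a) (up E b)) =
      y * ((x : (Qt (up E a) (up E b))ˣ) : Qt (up E a) (up E b)) * star y := by
    rw [← hY, ← hstar]
    rfl
  have hXN : s X ∈ N := by
    rw [hX, map_mul, map_mul, map_inv]
    exact hN.conj_mem _ hxN _
  have hXn : nrd ((X : (Qt (up E a) (up E b))ˣ) : Qt (up E a) (up E b)) = 1 := X.2
  have hid := quat_id _ hXn hu0 (by rw [hXv]; exact h0)
  have hqn : nrd (qc (qup E u) ((X : (Qt (up E a) (up E b))ˣ) : Qt (up E a) (up E b))) = 1 := by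
    have h1 : nrd (qup E u : Qt (up E a) (up E b)) ≠ 0 := nrd_qup_ne hu0
    rw [qc, D4.H369.nrd_smul', nrd_mul, nrd_mul, nrd_star', hXn]
    field_simp
  obtain ⟨X', hX'⟩ := exists_SL1 hqn
  have hconj : s X' = e (cjU c u hu0) * s X * (e (cjU c u hu0))⁻¹ := by
    rw [e_cjU_short he hs u hu0 X X' hX', mul_inv_cancel_right]
  have hX'N : s X' ∈ N := by
    rw [hconj]
    exact hN.conj_mem _ hXN _
  refine ⟨s (X * X'), ?_, short_ne_one hs _ ?_,
    short_one hs _ (q := -(nrd u)⁻¹ • (star u * star u)) ?_⟩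
  · rw [map_mul]
    exact N.mul_mem hXN hX'N
  · intro h1
    have h2 := congrArg (fun z : SL1 (up E a) (up E b) =>
      ((z : (Qt (up E a) (up E b))ˣ) : Qt (up E a) (up E b))) h1
    change ((X : (Qt (up E a) (up E b))ˣ) : Qt (up E a) (up E b)) *
      ((X' : (Qt (up E a) (up E b))ˣ) : Qt (up E a) (up E b)) = 1 at h2
    rw [hX', hid] at h2
    have h3 := congrArg QuaternionAlgebra.re h2
    rw [re_qup, QuaternionAlgebra.re_one, ← map_one (algebraMap k E)] at h3
    have h4 := (algebraMap k E).injective h3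
    rw [QuaternionAlgebra.re_smul, smul_eq_mul] at h4
    have h5 : (star u * star u).re = -nrd u := by
      have h6 : nrd u * (nrd u)⁻¹ = 1 := mul_inv_cancel₀ hu0
      linear_combination (-nrd u) * h4 - (star u * star u).re * h6
    have h7 : (star u * star u).re = 2 * u.re ^ 2 - nrd u := by
      simp [nrd]
      ring
    rw [h7] at h5
    have h8 : (2 : k) * u.re ^ 2 = 0 := by linear_combination h5
    exact hu (pow_eq_zero_iff (two_ne_zero) |>.1 ((mul_eq_zero.1 h8).resolve_left two_ne_zero))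
  · change ((X : (Qt (up E a) (up E b))ˣ) : Qt (up E a) (up E b)) *
      ((X' : (Qt (up E a) (up E b))ˣ) : Qt (up E a) (up E b)) = _
    rw [hX', hid]

/-- The elements of the group of automorphisms of the octonion algebra fix the unit element. -/
theorem e_one {e : AutC a b c →* TriU ρ I a b c} (he : IsExtU ρ I e) (h : AutC a b c) :
    (e h).1 1 = 1 := by
  have h1 : (e h).1 (oup M 1) = oup M (h.1 1) := he h 1
  have h2 : h.1 1 = 1 := by
    have h3 : h.1 1 * h.1 1 = h.1 1 * 1 := by
      rw [← h.2, _root_.mul_one, _root_.mul_one]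
    have h4 : h.1 (h.1.symm 1) = 1 := h.1.apply_symm_apply 1
    have h5 := h.2 1 (h.1.symm 1)
    rw [_root_.one_mul, h4, _root_.mul_one] at h5
    exact h5.symm
  rw [h2, D4.oup_one] at h1
  exact h1

/-- **A nontrivial normal subgroup contains a nontrivial element that fixes the unit element.** -/
theorem exists_fix [CharZero k] (hU : SetU k E M ρ I) (hdiv : Division a b c)
    (hnp : ∀ a' b' : kˣ, Aniso a' b' → NonPure k E a' b')
    (N : Subgroup (TriU ρ I a b c)) (hN : N.Normal) (hne : N ≠ ⊥) :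
    ∃ n ∈ N, n ≠ 1 ∧ n.1 1 = 1 := by
  obtain ⟨⟨g, hgN⟩, hg1⟩ := (Subgroup.ne_bot_iff_exists_ne_one).1 hne
  have hg1 : g ≠ 1 := fun h => hg1 (Subtype.ext h)
  obtain ⟨hf1, -, hf2⟩ := Orb.image_one hU.r3 g⁻¹
  obtain ⟨a', b', c', i, j, l, hT, x, hx⟩ := desc hU hdiv _ hf1 hf2
  obtain ⟨C, hC, hCi, hCs⟩ := H24.exists_conj ρ I (two_ne_zero) hT
  obtain ⟨g', rfl⟩ := hCs g
  obtain ⟨e, he⟩ := H24.exists_ext ρ I a' b' c'
  obtain ⟨s, hs⟩ := H24.exists_short hU a' b' c'
  have hM2 : NeZero (2 : M) := ⟨by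
    have : CharZero M := charZero_of_injective_algebraMap (algebraMap k M).injective
    exact two_ne_zero⟩
  obtain ⟨Φ, hΦ, -, -, -⟩ := exists_emb (trip_up (L := M) hT)
  have hab : Aniso a' b' := (aniso_of_trip hdiv hT).1
  have hg'1 : g' ≠ 1 := fun h => hg1 (by rw [h, map_one])
  have hg'N : g' ∈ N.comap C := hgN
  have hN' : (N.comap C).Normal := hN.comap C
  have h1 : (g'⁻¹).1 1 = ⟨x, 0⟩ := by
    apply Φ.injective
    rw [hΦ, hΦ]
    have h2 := hC g'⁻¹ 1
    rw [emb_one, map_inv, hx] at h2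
    rw [← h2, emb, qemb_zero, MulZeroClass.zero_mul, _root_.add_zero]
  obtain ⟨n, hnN, hn1, hn⟩ : ∃ n ∈ N.comap C, n ≠ 1 ∧ n.1 1 = 1 := by
    by_cases hcomm : ∀ t : SL1 a' b', g' * e (long a' b' c' t) = e (long a' b' c' t) * g'
    · obtain ⟨x0, hx0⟩ := cen hU hab he g' hcomm
      have h3 : g' = s x0 := by
        apply Subtype.ext
        apply LinearEquiv.ext
        intro y
        rw [hx0, hs]
      refine short_case hab (hnp a' b' hab) he hs _ hN' x0 (fun h => hg'1 ?_) (by rwa [← h3])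
      rw [h3, h, map_one]
    · push Not at hcomm
      obtain ⟨t, ht⟩ := hcomm
      set h := e (long a' b' c' t) with hh
      refine ⟨g' * h * g'⁻¹ * h⁻¹, ?_, fun h3 => ht ?_, ?_⟩
      · have e1 : g' * h * g'⁻¹ * h⁻¹ = g' * (h * g'⁻¹ * h⁻¹) := by
          simp only [_root_.mul_assoc]
        rw [e1]
        exact (N.comap C).mul_mem hg'N (hN'.conj_mem _ ((N.comap C).inv_mem hg'N) _)
      · rw [mul_inv_eq_one, mul_inv_eq_iff_eq_mul] at h3
        exact h3
      · have h4 : (h⁻¹).1 1 = 1 := by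
          rw [hh, ← map_inv]
          exact e_one he _
        have h5 : h.1 ⟨x, 0⟩ = ⟨x, 0⟩ := by
          rw [hh, e_long he]
          exact Oct.ext rfl (MulZeroClass.mul_zero _)
        have h6 : g'.1 ⟨x, 0⟩ = 1 := by
          rw [← h1]
          change (g' * g'⁻¹).1 1 = 1
          rw [mul_inv_cancel]
          rfl
        change g'.1 (h.1 ((g'⁻¹).1 ((h⁻¹).1 1))) = 1
        rw [h4, h1, h5, h6]
  refine ⟨C n, hnN, fun h => hn1 (hCi (by rw [h, map_one])), ?_⟩
  have h2 := hC n 1
  rw [emb_one, hn, emb_one] at h2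
  exact h2

/-- **(IF-7)** -/
theorem exists_aut_mem [CharZero k] (hU : SetU k E M ρ I) (hdiv : Division a b c)
    (hnp : ∀ a' b' : kˣ, Aniso a' b' → NonPure k E a' b')
    {e : AutC a b c →* TriU ρ I a b c} (he : IsExtU ρ I e)
    (N : Subgroup (TriU ρ I a b c)) (hN : N.Normal) (hne : N ≠ ⊥) :
    ∃ h : AutC a b c, h ≠ 1 ∧ e h ∈ N := by
  obtain ⟨n, hnN, hn1, hn⟩ := exists_fix hU hdiv hnp N hN hne
  obtain ⟨h, rfl⟩ := stab_one hU he n hn
  exact ⟨h, fun h1 => hn1 (by rw [h1, map_one]), hnN⟩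

end cjM

end Vale.Agent.P011.D4.H369
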