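import Vale.Agent.P011.D4.H369.Pair

/-!
Two elements of an octonion division algebra lie in a common quaternion subalgebra.
-/

namespace Vale.Agent.P011.D4.H369

open Vale.Agent.P011.MPQ Vale.Agent.P011.D4 Vale.Agent.P011.D4.Oct

variable {F : Type} [Field F] {a b c : Fˣ}

/-- The span of `1`, `u`, `v` and `u v`. -/
def sp2 (u v : Oct a b c) : Submodule F (Oct a b c) := Submodule.span F {1, u, v, u * v}

theorem sp2_mul (u v : Oct a b c) {x y : Oct a b c} (hx : x ∈ sp2 u v) (hy : y ∈ sp2 u v) :
    x * y ∈ sp2 u v := by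
  have m0 : (1 : Oct a b c) ∈ sp2 u v := Submodule.subset_span (by simp)
  have m1 : u ∈ sp2 u v := Submodule.subset_span (by simp)
  have m2 : v ∈ sp2 u v := Submodule.subset_span (by simp)
  have m3 : u * v ∈ sp2 u v := Submodule.subset_span (by simp)
  have hs : ∀ {x : Oct a b c} (t : F), x ∈ sp2 u v → t • x ∈ sp2 u v :=
    fun t hx => Submodule.smul_mem _ t hx
  have hself : ∀ {x : Oct a b c}, x ∈ sp2 u v → x * x ∈ sp2 u v := by
    intro x hx
    rw [mul_self_eq x]
    exact Submodule.sub_mem _ (hs _ hx) (hs _ m0)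
  have hst : ∀ {x : Oct a b c}, x ∈ sp2 u v → star x ∈ sp2 u v := by
    intro x hx
    rw [star_eq x]
    exact Submodule.sub_mem _ (hs _ m0) hx
  have hvu : v * u = bil v 1 • u + bil u 1 • v - bil u v • 1 - u * v := by
    have h := mul_star_add u v
    rw [star_eq v, star_eq u, mul_sub, mul_sub, mul_smul_comm, mul_smul_comm, mul_one,
      mul_one] at h
    rw [← h]
    abel
  have m4 : v * u ∈ sp2 u v := by
    rw [hvu]
    exact Submodule.sub_mem _ (Submodule.sub_mem _ (Submodule.add_mem _ (hs _ m1) (hs _ m2))
      (hs _ m0)) m3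
  have hss : ∀ {x z : Oct a b c}, z ∈ sp2 u v → x * z ∈ sp2 u v → (x * x) * z ∈ sp2 u v := by
    intro x z hz h
    rw [mul_self_eq x, sub_mul, smul_mul_assoc, smul_mul_assoc, one_mul]
    exact Submodule.sub_mem _ (hs _ h) (hs _ hz)
  have hss' : ∀ {x z : Oct a b c}, z ∈ sp2 u v → z * x ∈ sp2 u v → z * (x * x) ∈ sp2 u v := by
    intro x z hz h
    rw [mul_self_eq x, mul_sub, mul_smul_comm, mul_smul_comm, mul_one]
    exact Submodule.sub_mem _ (hs _ h) (hs _ hz)
  have key : ∀ x ∈ ({1, u, v, u * v} : Set (Oct a b c)),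
      ∀ y ∈ ({1, u, v, u * v} : Set (Oct a b c)), x * y ∈ sp2 u v := by
    have huuv : u * (u * v) ∈ sp2 u v := by
      rw [mul_mul_self]
      exact hss m2 m3
    have hvvu : v * (v * u) ∈ sp2 u v := by
      rw [mul_mul_self]
      exact hss m1 m4
    have hvuv : v * (u * v) ∈ sp2 u v := by
      have e : u * v = bil v 1 • u + bil u 1 • v - bil u v • 1 - v * u := by
        rw [hvu]
        abel
      rw [e, mul_sub, mul_sub, mul_add, mul_smul_comm, mul_smul_comm, mul_smul_comm, mul_one]
      exact Submodule.sub_mem _ (Submodule.sub_mem _ (Submodule.add_mem _ (hs _ m4)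
        (hs _ (hself m2))) (hs _ m2)) hvvu
    have huvu : (u * v) * u ∈ sp2 u v := by
      rw [flex, hvu, mul_sub, mul_sub, mul_add, mul_smul_comm, mul_smul_comm, mul_smul_comm,
        mul_one]
      exact Submodule.sub_mem _ (Submodule.sub_mem _ (Submodule.add_mem _ (hs _ (hself m1))
        (hs _ m3)) (hs _ m1)) huuv
    have huvv : (u * v) * v ∈ sp2 u v := by
      rw [mul_self_mul]
      exact hss' m1 m3
    intro x hx y hy
    have hx' : x ∈ sp2 u v := Submodule.subset_span hx
    have hy' : y ∈ sp2 u v := Submodule.subset_span hy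
    simp only [Set.mem_insert_iff, Set.mem_singleton_iff] at hx hy
    rcases hx with rfl | rfl | rfl | rfl
    · rwa [one_mul]
    · rcases hy with rfl | rfl | rfl | rfl
      · rwa [mul_one]
      · exact hself hx'
      · exact m3
      · exact huuv
    · rcases hy with rfl | rfl | rfl | rfl
      · rwa [mul_one]
      · exact m4
      · exact hself hx'
      · exact hvuv
    · rcases hy with rfl | rfl | rfl | rfl
      · rwa [mul_one]
      · exact huvu
      · exact huvv
      · exact hself hx'
  have key2 : ∀ x ∈ ({1, u, v, u * v} : Set (Oct a b c)), ∀ y ∈ sp2 u v, x * y ∈ sp2 u v := by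
    intro x hx y hy
    induction hy using Submodule.span_induction with
    | mem y hy => exact key x hx y hy
    | zero =>
      rw [mul_zero]
      exact Submodule.zero_mem _
    | add y z _ _ hy hz =>
      rw [mul_add]
      exact Submodule.add_mem _ hy hz
    | smul t y _ hy =>
      rw [mul_smul_comm]
      exact hs _ hy
  revert y
  induction hx using Submodule.span_induction with
  | mem x hx => exact fun {y} hy => key2 x hx y hy
  | zero =>
    intro y _
    rw [zero_mul]
    exact Submodule.zero_mem _
  | add x z _ _ hx hz =>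
    intro y hy
    rw [add_mul]
    exact Submodule.add_mem _ (hx hy) (hz hy)
  | smul t x _ hx =>
    intro y hy
    rw [smul_mul_assoc]
    exact hs _ (hx hy)

theorem finrank_sp2 (u v : Oct a b c) : Module.finrank F (sp2 u v) ≤ 4 := by
  classical
  have h := finrank_span_finset_le_card (R := F) ({1, u, v, u * v} : Finset (Oct a b c))
  have h2 : (({1, u, v, u * v} : Finset (Oct a b c)) : Set (Oct a b c)) = {1, u, v, u * v} := by
    simp
  have h3 : ({1, u, v, u * v} : Finset (Oct a b c)).card ≤ 4 := Finset.card_le_four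
  rw [Set.finrank, h2] at h
  exact h.trans h3

theorem linInd_of_dot (u : Fin 5 → Oct a b c) (hn : ∀ m, norm (u m) ≠ 0)
    (ho : ∀ m n, m ≠ n → dot (u m) (u n) = 0) : LinearIndependent F u := by
  rw [Fintype.linearIndependent_iff]
  intro g hg m
  have h : dot (∑ n, g n • u n) (u m) = ∑ n, g n * dot (u n) (u m) := by
    rw [Fin.sum_univ_five, Fin.sum_univ_five]
    simp only [dot_add_left, dot_smul_left]
  rw [hg, dot_zero_left, Finset.sum_eq_single m] at h
  · rw [← norm_eq_dot] at h
    exact (mul_eq_zero.1 h.symm).resolve_right (hn m)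
  · intro n _ hnm
    rw [ho n m hnm, mul_zero]
  · intro h0
    exact absurd (Finset.mem_univ m) h0

/-- Two elements of an octonion division algebra lie in a common quaternion subalgebra. -/
theorem exists_trip_of_two (hdiv : Division a b c) (u v : Oct a b c) :
    ∃ (a' b' c' : Fˣ) (i j l : Oct a b c), Trip a' b' c' i j l ∧
      (∃ x : Qt a' b', u = qemb i j x) ∧ ∃ y : Qt a' b', v = qemb i j y := by
  obtain ⟨a', b', c', i, j, l, hT, hW⟩ := exists_pair_of_sub hdiv (sp2 u v)
    (Submodule.subset_span (by simp)) (fun x hx y hy => sp2_mul u v hx hy) (by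
      intro w hw hn ho
      have h1 := linInd_of_dot w hn ho
      have h2 : LinearIndependent F (fun m => (⟨w m, hw m⟩ : sp2 u v)) :=
        LinearIndependent.of_comp (sp2 u v).subtype h1
      have : FiniteDimensional F (sp2 u v) := by
        rw [sp2]
        exact FiniteDimensional.span_of_finite F (Set.toFinite _)
      have h3 := h2.fintype_card_le_finrank
      rw [Fintype.card_fin] at h3
      have h4 := finrank_sp2 u v
      omega)
  exact ⟨a', b', c', i, j, l, hT, hW u (Submodule.subset_span (by simp)),
    hW v (Submodule.subset_span (by simp))⟩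

end Vale.Agent.P011.D4.H369
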